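import Mathlib

/-!
# P330 (PCP for PPAD): generalized circuits are explicitly solvable for every `ε ≥ 1/4`

Generalized circuits with the nine gate types of the problem statement and their
`ε`-satisfaction are modelled literally.  Every node gets one of three states: undetermined
(value `1/2`), low (value `1/4`) or high (value `3/4`).  One synchronous round `step` gives
each node the state that its gate prescribes from the current states of the gate inputs:
Constant gates prescribe low or high according to `α ≤ 1/2`, Add gates prescribe high,
Subtract gates prescribe low, Scale gates prescribe low if `α ≤ 2/3` and copy their input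
otherwise, Copy gates copy, and Less, Not, Or, And act as three-valued (Kleene) connectives.
Starting from the all-undetermined state, `|V|` rounds reach a state whose values
`ε`-satisfy every gate of the circuit, for every `ε ≥ 1/4`.
-/

namespace Vale.Agent.Results.P330.QuarterRegime

/-- A gate of a generalized circuit on the node set `V`; the last node is the output node,
the earlier nodes are the input nodes, and `α` is the gate parameter. -/
inductive Gate (V : Type) : Type
  | const (α : ℝ) (z : V)
  | scale (α : ℝ) (a z : V)
  | copy (a z : V)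
  | add (a b z : V)
  | sub (a b z : V)
  | less (a b z : V)
  | neg (a z : V)
  | disj (a b z : V)
  | conj (a b z : V)

/-- The output node of a gate. -/
def Gate.out {V : Type} : Gate V → V
  | .const _ z => z
  | .scale _ _ z => z
  | .copy _ z => z
  | .add _ _ z => z
  | .sub _ _ z => z
  | .less _ _ z => z
  | .neg _ z => z
  | .disj _ _ z => z
  | .conj _ _ z => z

/-- Gate parameters lie in `[0,1]`. -/
def Gate.Valid {V : Type} : Gate V → Prop
  | .const α _ => 0 ≤ α ∧ α ≤ 1
  | .scale α _ _ => 0 ≤ α ∧ α ≤ 1
  | _ => True

/-- `Sat ε x g`: the assignment `x` of values to the nodes `ε`-satisfies the gate `g`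
(Constant, Scale, Copy, Add, Subtract, Less, Not, Or, And, in this order). -/
def Sat {V : Type} (ε : ℝ) (x : V → ℝ) : Gate V → Prop
  | .const α z => |x z - α| ≤ ε
  | .scale α a z => |x z - α * x a| ≤ ε
  | .copy a z => |x z - x a| ≤ ε
  | .add a b z => |x z - min (x a + x b) 1| ≤ ε
  | .sub a b z => |x z - max (x a - x b) 0| ≤ ε
  | .less a b z => (x a < x b - ε → 1 - ε ≤ x z) ∧ (x b + ε < x a → x z ≤ ε)
  | .neg a z => (x a ≤ ε → 1 - ε ≤ x z) ∧ (1 - ε ≤ x a → x z ≤ ε)
  | .disj a b z => ((1 - ε ≤ x a ∨ 1 - ε ≤ x b) → 1 - ε ≤ x z) ∧ ((x a ≤ ε ∧ x b ≤ ε) → x z ≤ ε)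
  | .conj a b z => ((1 - ε ≤ x a ∧ 1 - ε ≤ x b) → 1 - ε ≤ x z) ∧ ((x a ≤ ε ∨ x b ≤ ε) → x z ≤ ε)

/-- The value of a node state: undetermined (`none`) is `1/2`, low (`some false`) is `1/4`,
high (`some true`) is `3/4`. -/
noncomputable def val : Option Bool → ℝ
  | none => 1 / 2
  | some false => 1 / 4
  | some true => 3 / 4

/-- Three-valued negation. -/
def kNot : Option Bool → Option Bool
  | none => none
  | some b => some (!b)

/-- Three-valued disjunction: high if some input is high, low if both are low, else
undetermined. -/
def kOr : Option Bool → Option Bool → Option Bool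
  | some true, _ => some true
  | _, some true => some true
  | some false, some false => some false
  | _, _ => none

/-- Three-valued conjunction: low if some input is low, high if both are high, else
undetermined. -/
def kAnd : Option Bool → Option Bool → Option Bool
  | some false, _ => some false
  | _, some false => some false
  | some true, some true => some true
  | _, _ => none

/-- Three-valued comparison: high on (low, high), low on (high, low), else undetermined. -/
def kLess : Option Bool → Option Bool → Option Bool
  | some false, some true => some true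
  | some true, some false => some false
  | _, _ => none

/-- The state that the gate prescribes for its output node, given the states `s` of all
nodes. -/
noncomputable def Gate.next {V : Type} (s : V → Option Bool) : Gate V → Option Bool
  | .const α _ => if α ≤ 1 / 2 then some false else some true
  | .scale α a _ => if α ≤ 2 / 3 then some false else s a
  | .copy a _ => s a
  | .add _ _ _ => some true
  | .sub _ _ _ => some false
  | .less a b _ => kLess (s a) (s b)
  | .neg a _ => kNot (s a)
  | .disj a b _ => kOr (s a) (s b)
  | .conj a b _ => kAnd (s a) (s b)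

open Classical in
/-- One synchronous round: every node takes the state prescribed by a gate of `T` that has
it as output node (high has priority if several gates do, which cannot happen in a
generalized circuit); a node that is the output of no gate, or whose gate prescribes
nothing, is undetermined. -/
noncomputable def step {V : Type} (T : Finset (Gate V)) (s : V → Option Bool) (v : V) :
    Option Bool :=
  if ∃ g ∈ T, g.out = v ∧ g.next s = some true then some true
  else if ∃ g ∈ T, g.out = v ∧ g.next s = some false then some false
  else none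

/-- The assignment reached after `|V|` synchronous rounds from the all-undetermined state. -/
noncomputable def sol {V : Type} [Fintype V] (T : Finset (Gate V)) (v : V) : ℝ :=
  val ((step T)^[Fintype.card V] (fun _ => none) v)

/-- The information order on node states. -/
def le3 (p q : Option Bool) : Prop := p = none ∨ p = q

theorem le3_refl (p : Option Bool) : le3 p p := Or.inr rfl

theorem kNot_mono : ∀ p p' : Option Bool, le3 p p' → le3 (kNot p) (kNot p') := by
  unfold le3; decide

theorem kOr_mono : ∀ p p' q q' : Option Bool, le3 p p' → le3 q q' →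
    le3 (kOr p q) (kOr p' q') := by
  unfold le3; decide

theorem kAnd_mono : ∀ p p' q q' : Option Bool, le3 p p' → le3 q q' →
    le3 (kAnd p q) (kAnd p' q') := by
  unfold le3; decide

theorem kLess_mono : ∀ p p' q q' : Option Bool, le3 p p' → le3 q q' →
    le3 (kLess p q) (kLess p' q') := by
  unfold le3; decide

theorem next_mono {V : Type} (s s' : V → Option Bool) (h : ∀ v, le3 (s v) (s' v))
    (g : Gate V) : le3 (g.next s) (g.next s') := by
  cases g with
  | const α z => exact le3_refl _
  | scale α a z =>
    show le3 (if α ≤ 2 / 3 then some false else s a) (if α ≤ 2 / 3 then some false else s' a)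
    split_ifs
    · exact le3_refl _
    · exact h a
  | copy a z => exact h a
  | add a b z => exact le3_refl _
  | sub a b z => exact le3_refl _
  | less a b z => exact kLess_mono _ _ _ _ (h a) (h b)
  | neg a z => exact kNot_mono _ _ (h a)
  | disj a b z => exact kOr_mono _ _ _ _ (h a) (h b)
  | conj a b z => exact kAnd_mono _ _ _ _ (h a) (h b)

theorem step_out {V : Type} (T : Finset (Gate V))
    (hout : ∀ g ∈ T, ∀ g' ∈ T, g.out = g'.out → g = g')
    (s : V → Option Bool) (g : Gate V) (hg : g ∈ T) : step T s g.out = g.next s := by
  classical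
  have key : ∀ c : Bool, (∃ g' ∈ T, g'.out = g.out ∧ g'.next s = some c) ↔ g.next s = some c := by
    intro c
    constructor
    · rintro ⟨g', hg', ho, hn⟩
      have : g' = g := hout g' hg' g hg ho
      rw [← this]; exact hn
    · intro hn
      exact ⟨g, hg, rfl, hn⟩
  unfold step
  rw [if_congr (key true) rfl rfl, if_congr (key false) rfl rfl]
  rcases hn : g.next s with _ | _ | _ <;> simp

theorem step_none {V : Type} (T : Finset (Gate V)) (s : V → Option Bool) (v : V)
    (hv : ¬ ∃ g ∈ T, g.out = v) : step T s v = none := by
  classical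
  unfold step
  rw [if_neg, if_neg]
  · rintro ⟨g, hg, ho, _⟩; exact hv ⟨g, hg, ho⟩
  · rintro ⟨g, hg, ho, _⟩; exact hv ⟨g, hg, ho⟩

theorem step_mono {V : Type} (T : Finset (Gate V))
    (hout : ∀ g ∈ T, ∀ g' ∈ T, g.out = g'.out → g = g')
    (s s' : V → Option Bool) (h : ∀ v, le3 (s v) (s' v)) (v : V) :
    le3 (step T s v) (step T s' v) := by
  by_cases hv : ∃ g ∈ T, g.out = v
  · obtain ⟨g, hg, rfl⟩ := hv
    rw [step_out T hout s g hg, step_out T hout s' g hg]
    exact next_mono s s' h g
  · rw [step_none T s v hv]
    exact Or.inl rfl

/-- The number of determined nodes. -/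
noncomputable def det {V : Type} [Fintype V] (s : V → Option Bool) : ℕ :=
  (Finset.univ.filter fun v => s v ≠ none).card

theorem det_le {V : Type} [Fintype V] (s : V → Option Bool) : det s ≤ Fintype.card V := by
  unfold det
  exact Finset.card_filter_le _ _

theorem det_lt {V : Type} [Fintype V] (s s' : V → Option Bool) (h : ∀ v, le3 (s v) (s' v))
    (hne : s ≠ s') : det s < det s' := by
  classical
  unfold det
  apply Finset.card_lt_card
  rw [Finset.ssubset_iff_of_subset]
  · have : ∃ v, s v ≠ s' v := by
      by_contra hcon
      apply hne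
      funext v
      by_contra hv
      exact hcon ⟨v, hv⟩
    obtain ⟨v, hv⟩ := this
    refine ⟨v, ?_, ?_⟩
    · rw [Finset.mem_filter]
      refine ⟨Finset.mem_univ _, ?_⟩
      intro h0
      rcases h v with h1 | h1
      · exact hv (h1.trans h0.symm)
      · exact hv h1
    · rw [Finset.mem_filter]
      intro hmem
      rcases h v with h1 | h1
      · exact hmem.2 h1
      · exact hv h1
  · intro v hv
    rw [Finset.mem_filter] at hv ⊢
    refine ⟨Finset.mem_univ _, ?_⟩
    rcases h v with h1 | h1
    · exact absurd h1 hv.2
    · rw [← h1]; exact hv.2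

theorem iter_mono {V : Type} (T : Finset (Gate V))
    (hout : ∀ g ∈ T, ∀ g' ∈ T, g.out = g'.out → g = g') (k : ℕ) :
    ∀ v, le3 ((step T)^[k] (fun _ => none) v) ((step T)^[k + 1] (fun _ => none) v) := by
  induction k with
  | zero => intro v; exact Or.inl rfl
  | succ k ih =>
    intro v
    have e1 := Function.iterate_succ_apply' (step T) k (fun _ => none)
    have e2 := Function.iterate_succ_apply' (step T) (k + 1) (fun _ => none)
    have key := step_mono T hout _ _ ih v
    rw [← e1, ← e2] at key
    exact key

theorem iter_fixed {V : Type} [Fintype V] (T : Finset (Gate V))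
    (hout : ∀ g ∈ T, ∀ g' ∈ T, g.out = g'.out → g = g') :
    step T ((step T)^[Fintype.card V] (fun _ => none)) =
      (step T)^[Fintype.card V] (fun _ => none) := by
  have P : ∀ k : ℕ, (step T)^[k] (fun _ => none) = (step T)^[k + 1] (fun _ => none) ∨
      k + 1 ≤ det ((step T)^[k + 1] (fun _ => none)) := by
    intro k
    induction k with
    | zero =>
      by_cases h0 : (step T)^[0] (fun _ => none) = (step T)^[0 + 1] (fun _ => none)
      · exact Or.inl h0
      · right
        have := det_lt _ _ (iter_mono T hout 0) h0
        omega
    | succ k ih =>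
      by_cases h0 : (step T)^[k + 1] (fun _ => none) = (step T)^[k + 1 + 1] (fun _ => none)
      · exact Or.inl h0
      · right
        rcases ih with ih | ih
        · exfalso
          apply h0
          have e1 := Function.iterate_succ_apply' (step T) k (fun _ => none)
          have e2 := Function.iterate_succ_apply' (step T) (k + 1) (fun _ => none)
          exact (e2.trans ((congrArg (step T) ih.symm).trans e1.symm)).symm
        · have := det_lt _ _ (iter_mono T hout (k + 1)) h0
          omega
  rcases P (Fintype.card V) with h | h
  · rw [← Function.iterate_succ_apply' (step T) (Fintype.card V)]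
    exact h.symm
  · have := det_le ((step T)^[Fintype.card V + 1] (fun _ => none))
    omega

theorem sat_neg (ε : ℝ) (hε : 1 / 4 ≤ ε) (p : Option Bool) :
    (val p ≤ ε → 1 - ε ≤ val (kNot p)) ∧ (1 - ε ≤ val p → val (kNot p) ≤ ε) := by
  rcases p with _ | _ | _ <;> simp only [val, kNot, Bool.not_false, Bool.not_true] <;>
    constructor <;> intro h <;> linarith

theorem sat_less (ε : ℝ) (hε : 1 / 4 ≤ ε) (p q : Option Bool) :
    (val p < val q - ε → 1 - ε ≤ val (kLess p q)) ∧
      (val q + ε < val p → val (kLess p q) ≤ ε) := by
  rcases p with _ | _ | _ <;> rcases q with _ | _ | _ <;> simp only [val, kLess] <;>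
    constructor <;> intro h <;> linarith

theorem sat_disj (ε : ℝ) (hε : 1 / 4 ≤ ε) (p q : Option Bool) :
    ((1 - ε ≤ val p ∨ 1 - ε ≤ val q) → 1 - ε ≤ val (kOr p q)) ∧
      ((val p ≤ ε ∧ val q ≤ ε) → val (kOr p q) ≤ ε) := by
  rcases p with _ | _ | _ <;> rcases q with _ | _ | _ <;> simp only [val, kOr] <;>
    constructor <;> intro h <;> first | (rcases h with h | h <;> linarith) | (obtain ⟨h1, h2⟩ := h; linarith)

theorem sat_conj (ε : ℝ) (hε : 1 / 4 ≤ ε) (p q : Option Bool) :
    ((1 - ε ≤ val p ∧ 1 - ε ≤ val q) → 1 - ε ≤ val (kAnd p q)) ∧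
      ((val p ≤ ε ∨ val q ≤ ε) → val (kAnd p q) ≤ ε) := by
  rcases p with _ | _ | _ <;> rcases q with _ | _ | _ <;> simp only [val, kAnd] <;>
    constructor <;> intro h <;> first | (rcases h with h | h <;> linarith) | (obtain ⟨h1, h2⟩ := h; linarith)

theorem val_low : val (some false) = 1 / 4 := rfl

theorem val_high : val (some true) = 3 / 4 := rfl

theorem val_bounds (p : Option Bool) : 1 / 4 ≤ val p ∧ val p ≤ 3 / 4 := by
  rcases p with _ | _ | _ <;> simp only [val] <;> constructor <;> norm_num

/-- For every generalized circuit and every `ε ≥ 1/4`, the assignment `sol T` reached after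
`|V|` synchronous rounds from the all-undetermined state takes only the values `1/4`, `1/2`,
`3/4` and `ε`-satisfies every gate. -/
theorem result (V : Type) [Fintype V] (T : Finset (Gate V))
    (hpar : ∀ g ∈ T, g.Valid)
    (hout : ∀ g ∈ T, ∀ g' ∈ T, g.out = g'.out → g = g')
    (ε : ℝ) (hε : 1 / 4 ≤ ε) :
    (∀ v, sol T v = 1 / 4 ∨ sol T v = 1 / 2 ∨ sol T v = 3 / 4) ∧
      ∀ g ∈ T, Sat ε (sol T) g := by
  refine ⟨fun v => ?_, ?_⟩
  · unfold sol
    rcases (step T)^[Fintype.card V] (fun _ => none) v with _ | _ | _
    · exact Or.inr (Or.inl rfl)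
    · exact Or.inl rfl
    · exact Or.inr (Or.inr rfl)
  intro g hg
  set s : V → Option Bool := (step T)^[Fintype.card V] (fun _ => none) with hs
  have hsol : sol T = fun v => val (s v) := rfl
  rw [hsol]
  have hfix : step T s = s := iter_fixed T hout
  have hz : s g.out = g.next s := by
    rw [← step_out T hout s g hg, hfix]
  have hv := hpar g hg
  cases g with
  | const α z =>
    obtain ⟨h0, h1⟩ : 0 ≤ α ∧ α ≤ 1 := hv
    have hz' : s z = if α ≤ 1 / 2 then some false else some true := hz
    show |val (s z) - α| ≤ ε
    rw [hz', abs_le]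
    split_ifs with hα
    · rw [val_low]; constructor <;> linarith
    · rw [val_high]; rw [not_le] at hα; constructor <;> linarith
  | scale α a z =>
    obtain ⟨h0, h1⟩ : 0 ≤ α ∧ α ≤ 1 := hv
    have hz' : s z = if α ≤ 2 / 3 then some false else s a := hz
    obtain ⟨ha1, ha2⟩ := val_bounds (s a)
    show |val (s z) - α * val (s a)| ≤ ε
    rw [hz', abs_le]
    split_ifs with hα
    · rw [val_low]; constructor <;> nlinarith
    · rw [not_le] at hα; constructor <;> nlinarith
  | copy a z =>
    have hz' : s z = s a := hz
    show |val (s z) - val (s a)| ≤ ε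
    rw [hz', sub_self, abs_zero]; linarith
  | add a b z =>
    have hz' : s z = some true := hz
    obtain ⟨ha1, ha2⟩ := val_bounds (s a)
    obtain ⟨hb1, hb2⟩ := val_bounds (s b)
    show |val (s z) - min (val (s a) + val (s b)) 1| ≤ ε
    rw [hz', abs_le, val_high]
    rcases min_choice (val (s a) + val (s b)) 1 with hm | hm <;> rw [hm] <;>
      constructor <;> first | linarith | (have := min_le_right (val (s a) + val (s b)) 1; linarith)
  | sub a b z =>
    have hz' : s z = some false := hz
    obtain ⟨ha1, ha2⟩ := val_bounds (s a)
    obtain ⟨hb1, hb2⟩ := val_bounds (s b)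
    show |val (s z) - max (val (s a) - val (s b)) 0| ≤ ε
    rw [hz', abs_le, val_low]
    rcases max_choice (val (s a) - val (s b)) 0 with hm | hm <;> rw [hm] <;>
      constructor <;> first | linarith | (have := le_max_right (val (s a) - val (s b)) 0; linarith)
  | less a b z =>
    have hz' : s z = kLess (s a) (s b) := hz
    show (val (s a) < val (s b) - ε → 1 - ε ≤ val (s z)) ∧
      (val (s b) + ε < val (s a) → val (s z) ≤ ε)
    rw [hz']; exact sat_less ε hε _ _
  | neg a z =>
    have hz' : s z = kNot (s a) := hz
    show (val (s a) ≤ ε → 1 - ε ≤ val (s z)) ∧ (1 - ε ≤ val (s a) → val (s z) ≤ ε)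
    rw [hz']; exact sat_neg ε hε _
  | disj a b z =>
    have hz' : s z = kOr (s a) (s b) := hz
    show ((1 - ε ≤ val (s a) ∨ 1 - ε ≤ val (s b)) → 1 - ε ≤ val (s z)) ∧
      ((val (s a) ≤ ε ∧ val (s b) ≤ ε) → val (s z) ≤ ε)
    rw [hz']; exact sat_disj ε hε _ _
  | conj a b z =>
    have hz' : s z = kAnd (s a) (s b) := hz
    show ((1 - ε ≤ val (s a) ∧ 1 - ε ≤ val (s b)) → 1 - ε ≤ val (s z)) ∧
      ((val (s a) ≤ ε ∨ val (s b) ≤ ε) → val (s z) ≤ ε)
    rw [hz']; exact sat_conj ε hε _ _

end Vale.Agent.Results.P330.QuarterRegime
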