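import Mathlib
import Vale.Agent.Results.P330.QuarterRegime

/-!
# P330 (PCP for PPAD): balanced generalized circuits are solved by monotone iteration

Generalized circuits and `ε`-satisfaction are those of `QuarterRegime` (the nine gate types
of the problem statement).  A two-colouring `σ` of the nodes is *balanced* for a gate if the
output node has the colour of every input on which the gate depends increasingly (Scale,
Copy, Add, Or, And, the first input of Subtract, the second input of Less) and the other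
colour than every input on which it depends decreasingly (the second input of Subtract, the
first input of Less, the input of Not).

One synchronous round `step` gives every node the value that its gate computes from the
current values: `α`, `α * x a`, `x a`, `min (x a + x b) 1`, `max (x a - x b) 0`, and `0/1`
valued threshold functions for Less, Not, Or, And.  Started from the state `bot σ` (value `0`
on colour `true`, value `1` on colour `false`) the rounds move every node monotonically, so
the potential `∑ v, ± x v` can only grow, by at most `|V|` in total, and it grows by more than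
`ε / 2` in every round in which some node moves by more than `ε / 2`.  A round in which no
node moves by more than `ε / 2` produces an assignment that `ε`-satisfies every gate.
-/

namespace Vale.Agent.Results.P330.BalancedCircuits

open Vale.Agent.Results.P330.QuarterRegime (Gate Sat)

/-- `Balanced σ g`: the output node of `g` has the colour of each input on which `g` depends
increasingly and the other colour than each input on which `g` depends decreasingly. -/
def Balanced {V : Type} (σ : V → Bool) : Gate V → Prop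
  | .const _ _ => True
  | .scale _ a z => σ z = σ a
  | .copy a z => σ z = σ a
  | .add a b z => σ z = σ a ∧ σ z = σ b
  | .sub a b z => σ z = σ a ∧ σ z ≠ σ b
  | .less a b z => σ z ≠ σ a ∧ σ z = σ b
  | .neg a z => σ z ≠ σ a
  | .disj a b z => σ z = σ a ∧ σ z = σ b
  | .conj a b z => σ z = σ a ∧ σ z = σ b

/-- The value that a gate computes for its output node from the values `x` of all nodes. -/
noncomputable def ev {V : Type} (x : V → ℝ) : Gate V → ℝ
  | .const α _ => α
  | .scale α a _ => α * x a
  | .copy a _ => x a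
  | .add a b _ => min (x a + x b) 1
  | .sub a b _ => max (x a - x b) 0
  | .less a b _ => if x a < x b then 1 else 0
  | .neg a _ => if x a ≤ 1 / 2 then 1 else 0
  | .disj a b _ => if 1 / 2 ≤ x a ∨ 1 / 2 ≤ x b then 1 else 0
  | .conj a b _ => if 1 / 2 ≤ x a ∧ 1 / 2 ≤ x b then 1 else 0

/-- The start state: `0` on the nodes of colour `true`, `1` on the nodes of colour `false`. -/
def bot {V : Type} (σ : V → Bool) (v : V) : ℝ := if σ v then 0 else 1

open Classical in
/-- One synchronous round: every node that is the output of a gate of `T` takes the value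
computed by that gate from the current values; the other nodes take their start value. -/
noncomputable def step {V : Type} (T : Finset (Gate V)) (σ : V → Bool) (x : V → ℝ) (v : V) :
    ℝ :=
  if h : ∃ g ∈ T, g.out = v then ev x (Classical.choose h) else bot σ v

/-- The assignment after `t` synchronous rounds from the start state. -/
noncomputable def sol {V : Type} (T : Finset (Gate V)) (σ : V → Bool) (t : ℕ) : V → ℝ :=
  (step T σ)^[t] (bot σ)

/-- the signed order: up on colour `true`, down on colour `false` -/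
def Le {V : Type} (σ : V → Bool) (x y : V → ℝ) : Prop :=
  ∀ v, (σ v = true → x v ≤ y v) ∧ (σ v = false → y v ≤ x v)

/-- the sign of a colour -/
def sg (b : Bool) : ℝ := if b then 1 else -1

theorem ev_mem {V : Type} {x : V → ℝ} (hx : ∀ v, 0 ≤ x v ∧ x v ≤ 1) {g : Gate V}
    (hg : g.Valid) : 0 ≤ ev x g ∧ ev x g ≤ 1 := by
  cases g with
  | const α z =>
    obtain ⟨h0, h1⟩ : 0 ≤ α ∧ α ≤ 1 := hg
    exact ⟨h0, h1⟩
  | scale α a z =>
    obtain ⟨h0, h1⟩ : 0 ≤ α ∧ α ≤ 1 := hg
    have ha := hx a
    show 0 ≤ α * x a ∧ α * x a ≤ 1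
    constructor
    · exact mul_nonneg h0 ha.1
    · nlinarith [mul_le_mul h1 ha.2 ha.1 (by norm_num : (0 : ℝ) ≤ 1)]
  | copy a z => exact hx a
  | add a b z =>
    have ha := hx a
    have hb := hx b
    show 0 ≤ min (x a + x b) 1 ∧ min (x a + x b) 1 ≤ 1
    exact ⟨le_min (by linarith) (by norm_num), min_le_right _ _⟩
  | sub a b z =>
    have ha := hx a
    have hb := hx b
    show 0 ≤ max (x a - x b) 0 ∧ max (x a - x b) 0 ≤ 1
    exact ⟨le_max_right _ _, max_le (by linarith) (by norm_num)⟩
  | less a b z =>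
    show 0 ≤ (if x a < x b then (1 : ℝ) else 0) ∧ (if x a < x b then (1 : ℝ) else 0) ≤ 1
    split_ifs <;> norm_num
  | neg a z =>
    show 0 ≤ (if x a ≤ 1 / 2 then (1 : ℝ) else 0) ∧ (if x a ≤ 1 / 2 then (1 : ℝ) else 0) ≤ 1
    split_ifs <;> norm_num
  | disj a b z =>
    show 0 ≤ (if 1 / 2 ≤ x a ∨ 1 / 2 ≤ x b then (1 : ℝ) else 0) ∧
      (if 1 / 2 ≤ x a ∨ 1 / 2 ≤ x b then (1 : ℝ) else 0) ≤ 1
    split_ifs <;> norm_num
  | conj a b z =>
    show 0 ≤ (if 1 / 2 ≤ x a ∧ 1 / 2 ≤ x b then (1 : ℝ) else 0) ∧
      (if 1 / 2 ≤ x a ∧ 1 / 2 ≤ x b then (1 : ℝ) else 0) ≤ 1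
    split_ifs <;> norm_num

theorem ite_le_ite {p q : Prop} [Decidable p] [Decidable q] (h : p → q) :
    (if p then (1 : ℝ) else 0) ≤ (if q then (1 : ℝ) else 0) := by
  by_cases hp : p
  · rw [if_pos hp, if_pos (h hp)]
  · rw [if_neg hp]
    split_ifs <;> norm_num

theorem not_eq_true_of_ne {p q : Bool} (h : p ≠ q) (hp : p = true) : q = false := by
  cases q
  · rfl
  · exact absurd hp h

theorem not_eq_false_of_ne {p q : Bool} (h : p ≠ q) (hp : p = false) : q = true := by
  cases q
  · exact absurd hp h
  · rfl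

/-- every gate function is monotone in the signed order of a balanced colouring -/
theorem ev_mono {V : Type} {σ : V → Bool} {x y : V → ℝ} (hxy : Le σ x y) {g : Gate V}
    (hg : g.Valid) (hb : Balanced σ g) :
    (σ g.out = true → ev x g ≤ ev y g) ∧ (σ g.out = false → ev y g ≤ ev x g) := by
  cases g with
  | const α z => exact ⟨fun _ => le_refl _, fun _ => le_refl _⟩
  | scale α a z =>
    obtain ⟨h0, h1⟩ : 0 ≤ α ∧ α ≤ 1 := hg
    have hza : σ z = σ a := hb
    constructor
    · intro hz
      exact mul_le_mul_of_nonneg_left ((hxy a).1 (hza ▸ hz)) h0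
    · intro hz
      exact mul_le_mul_of_nonneg_left ((hxy a).2 (hza ▸ hz)) h0
  | copy a z =>
    have hza : σ z = σ a := hb
    exact ⟨fun hz => (hxy a).1 (hza ▸ hz), fun hz => (hxy a).2 (hza ▸ hz)⟩
  | add a b z =>
    obtain ⟨hza, hzb⟩ : σ z = σ a ∧ σ z = σ b := hb
    constructor
    · intro hz
      exact min_le_min (add_le_add ((hxy a).1 (hza ▸ hz)) ((hxy b).1 (hzb ▸ hz))) (le_refl _)
    · intro hz
      exact min_le_min (add_le_add ((hxy a).2 (hza ▸ hz)) ((hxy b).2 (hzb ▸ hz))) (le_refl _)
  | sub a b z =>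
    obtain ⟨hza, hzb⟩ : σ z = σ a ∧ σ z ≠ σ b := hb
    constructor
    · intro hz
      have h1 := (hxy a).1 (hza ▸ hz)
      have h2 := (hxy b).2 (not_eq_true_of_ne hzb hz)
      exact max_le_max (by linarith) (le_refl _)
    · intro hz
      have h1 := (hxy a).2 (hza ▸ hz)
      have h2 := (hxy b).1 (not_eq_false_of_ne hzb hz)
      exact max_le_max (by linarith) (le_refl _)
  | less a b z =>
    obtain ⟨hza, hzb⟩ : σ z ≠ σ a ∧ σ z = σ b := hb
    constructor
    · intro hz
      have h1 := (hxy a).2 (not_eq_true_of_ne hza hz)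
      have h2 := (hxy b).1 (hzb ▸ hz)
      exact ite_le_ite (fun h => by linarith)
    · intro hz
      have h1 := (hxy a).1 (not_eq_false_of_ne hza hz)
      have h2 := (hxy b).2 (hzb ▸ hz)
      exact ite_le_ite (fun h => by linarith)
  | neg a z =>
    have hza : σ z ≠ σ a := hb
    constructor
    · intro hz
      have h1 := (hxy a).2 (not_eq_true_of_ne hza hz)
      exact ite_le_ite (fun h => by linarith)
    · intro hz
      have h1 := (hxy a).1 (not_eq_false_of_ne hza hz)
      exact ite_le_ite (fun h => by linarith)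
  | disj a b z =>
    obtain ⟨hza, hzb⟩ : σ z = σ a ∧ σ z = σ b := hb
    constructor
    · intro hz
      have h1 := (hxy a).1 (hza ▸ hz)
      have h2 := (hxy b).1 (hzb ▸ hz)
      exact ite_le_ite (fun h => h.elim (fun h => Or.inl (by linarith)) (fun h => Or.inr (by linarith)))
    · intro hz
      have h1 := (hxy a).2 (hza ▸ hz)
      have h2 := (hxy b).2 (hzb ▸ hz)
      exact ite_le_ite (fun h => h.elim (fun h => Or.inl (by linarith)) (fun h => Or.inr (by linarith)))
  | conj a b z =>
    obtain ⟨hza, hzb⟩ : σ z = σ a ∧ σ z = σ b := hb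
    constructor
    · intro hz
      have h1 := (hxy a).1 (hza ▸ hz)
      have h2 := (hxy b).1 (hzb ▸ hz)
      exact ite_le_ite (fun h => ⟨by linarith [h.1], by linarith [h.2]⟩)
    · intro hz
      have h1 := (hxy a).2 (hza ▸ hz)
      have h2 := (hxy b).2 (hzb ▸ hz)
      exact ite_le_ite (fun h => ⟨by linarith [h.1], by linarith [h.2]⟩)

/-- if the output of a gate carries the value computed from `x'` and no node moved by more
than `ε / 2` between `x'` and `x`, then `x` `ε`-satisfies the gate -/
theorem sat_of_close {V : Type} {ε : ℝ} (hε0 : 0 < ε) (hε1 : ε < 1 / 3) {x x' : V → ℝ}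
    (hclose : ∀ v, |x v - x' v| ≤ ε / 2) {g : Gate V} (hg : g.Valid)
    (hz : x g.out = ev x' g) : Sat ε x g := by
  cases g with
  | const α z =>
    have hz' : x z = α := hz
    show |x z - α| ≤ ε
    rw [hz', sub_self, abs_zero]
    linarith
  | scale α a z =>
    obtain ⟨h0, h1⟩ : 0 ≤ α ∧ α ≤ 1 := hg
    have hz' : x z = α * x' a := hz
    have ha := abs_le.mp (hclose a)
    show |x z - α * x a| ≤ ε
    rw [hz', abs_le]
    constructor <;> nlinarith [ha.1, ha.2]
  | copy a z =>
    have hz' : x z = x' a := hz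
    have ha := abs_le.mp (hclose a)
    show |x z - x a| ≤ ε
    rw [hz', abs_le]
    constructor <;> linarith [ha.1, ha.2]
  | add a b z =>
    have hz' : x z = min (x' a + x' b) 1 := hz
    have ha := abs_le.mp (hclose a)
    have hb := abs_le.mp (hclose b)
    show |x z - min (x a + x b) 1| ≤ ε
    rw [hz', abs_le]
    rcases min_cases (x' a + x' b) 1 with ⟨h1, h2⟩ | ⟨h1, h2⟩ <;>
      rcases min_cases (x a + x b) 1 with ⟨h3, h4⟩ | ⟨h3, h4⟩ <;>
      rw [h1, h3] <;> constructor <;> linarith [ha.1, ha.2, hb.1, hb.2]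
  | sub a b z =>
    have hz' : x z = max (x' a - x' b) 0 := hz
    have ha := abs_le.mp (hclose a)
    have hb := abs_le.mp (hclose b)
    show |x z - max (x a - x b) 0| ≤ ε
    rw [hz', abs_le]
    rcases max_cases (x' a - x' b) 0 with ⟨h1, h2⟩ | ⟨h1, h2⟩ <;>
      rcases max_cases (x a - x b) 0 with ⟨h3, h4⟩ | ⟨h3, h4⟩ <;>
      rw [h1, h3] <;> constructor <;> linarith [ha.1, ha.2, hb.1, hb.2]
  | less a b z =>
    have hz' : x z = if x' a < x' b then 1 else 0 := hz
    have ha := abs_le.mp (hclose a)
    have hb := abs_le.mp (hclose b)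
    show (x a < x b - ε → 1 - ε ≤ x z) ∧ (x b + ε < x a → x z ≤ ε)
    constructor
    · intro h
      have h' : x' a < x' b := by linarith [ha.1, ha.2, hb.1, hb.2]
      rw [hz', if_pos h']
      linarith
    · intro h
      have h' : ¬ x' a < x' b := by
        intro hc
        linarith [ha.1, ha.2, hb.1, hb.2]
      rw [hz', if_neg h']
      linarith
  | neg a z =>
    have hz' : x z = if x' a ≤ 1 / 2 then 1 else 0 := hz
    have ha := abs_le.mp (hclose a)
    show (x a ≤ ε → 1 - ε ≤ x z) ∧ (1 - ε ≤ x a → x z ≤ ε)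
    constructor
    · intro h
      have h' : x' a ≤ 1 / 2 := by linarith [ha.1, ha.2]
      rw [hz', if_pos h']
      linarith
    · intro h
      have h' : ¬ x' a ≤ 1 / 2 := by
        intro hc
        linarith [ha.1, ha.2]
      rw [hz', if_neg h']
      linarith
  | disj a b z =>
    have hz' : x z = if 1 / 2 ≤ x' a ∨ 1 / 2 ≤ x' b then 1 else 0 := hz
    have ha := abs_le.mp (hclose a)
    have hb := abs_le.mp (hclose b)
    show ((1 - ε ≤ x a ∨ 1 - ε ≤ x b) → 1 - ε ≤ x z) ∧ ((x a ≤ ε ∧ x b ≤ ε) → x z ≤ ε)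
    constructor
    · intro h
      have h' : 1 / 2 ≤ x' a ∨ 1 / 2 ≤ x' b := by
        rcases h with h | h
        · exact Or.inl (by linarith [ha.1, ha.2])
        · exact Or.inr (by linarith [hb.1, hb.2])
      rw [hz', if_pos h']
      linarith
    · intro h
      have h' : ¬ (1 / 2 ≤ x' a ∨ 1 / 2 ≤ x' b) := by
        rintro (hc | hc)
        · linarith [ha.1, ha.2, h.1]
        · linarith [hb.1, hb.2, h.2]
      rw [hz', if_neg h']
      linarith
  | conj a b z =>
    have hz' : x z = if 1 / 2 ≤ x' a ∧ 1 / 2 ≤ x' b then 1 else 0 := hz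
    have ha := abs_le.mp (hclose a)
    have hb := abs_le.mp (hclose b)
    show ((1 - ε ≤ x a ∧ 1 - ε ≤ x b) → 1 - ε ≤ x z) ∧ ((x a ≤ ε ∨ x b ≤ ε) → x z ≤ ε)
    constructor
    · intro h
      have h' : 1 / 2 ≤ x' a ∧ 1 / 2 ≤ x' b :=
        ⟨by linarith [ha.1, ha.2, h.1], by linarith [hb.1, hb.2, h.2]⟩
      rw [hz', if_pos h']
      linarith
    · intro h
      have h' : ¬ (1 / 2 ≤ x' a ∧ 1 / 2 ≤ x' b) := by
        rintro ⟨hc1, hc2⟩
        rcases h with h | h
        · linarith [ha.1, ha.2]
        · linarith [hb.1, hb.2]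
      rw [hz', if_neg h']
      linarith

theorem bot_mem {V : Type} (σ : V → Bool) (v : V) : 0 ≤ bot σ v ∧ bot σ v ≤ 1 := by
  unfold bot
  split_ifs <;> norm_num

open Classical in
theorem step_out {V : Type} {T : Finset (Gate V)}
    (hout : ∀ g ∈ T, ∀ g' ∈ T, g.out = g'.out → g = g') (σ : V → Bool) (x : V → ℝ)
    {g : Gate V} (hg : g ∈ T) : step T σ x g.out = ev x g := by
  have h : ∃ g' ∈ T, g'.out = g.out := ⟨g, hg, rfl⟩
  unfold step
  rw [dif_pos h]
  have hc := Classical.choose_spec h
  rw [hout _ hc.1 g hg hc.2]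

open Classical in
theorem step_mem {V : Type} {T : Finset (Gate V)} (hpar : ∀ g ∈ T, g.Valid) (σ : V → Bool)
    {x : V → ℝ} (hx : ∀ v, 0 ≤ x v ∧ x v ≤ 1) (v : V) :
    0 ≤ step T σ x v ∧ step T σ x v ≤ 1 := by
  unfold step
  by_cases h : ∃ g ∈ T, g.out = v
  · rw [dif_pos h]
    exact ev_mem hx (hpar _ (Classical.choose_spec h).1)
  · rw [dif_neg h]
    exact bot_mem σ v

open Classical in
theorem step_mono {V : Type} {T : Finset (Gate V)} (hpar : ∀ g ∈ T, g.Valid) {σ : V → Bool}
    (hbal : ∀ g ∈ T, Balanced σ g) {x y : V → ℝ} (hxy : Le σ x y) :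
    Le σ (step T σ x) (step T σ y) := by
  intro v
  unfold step
  by_cases h : ∃ g ∈ T, g.out = v
  · rw [dif_pos h, dif_pos h]
    have hc := Classical.choose_spec h
    have hm := ev_mono hxy (hpar _ hc.1) (hbal _ hc.1)
    rw [hc.2] at hm
    exact hm
  · rw [dif_neg h, dif_neg h]
    exact ⟨fun _ => le_refl _, fun _ => le_refl _⟩

theorem sol_succ {V : Type} (T : Finset (Gate V)) (σ : V → Bool) (t : ℕ) :
    sol T σ (t + 1) = step T σ (sol T σ t) := by
  unfold sol
  rw [Function.iterate_succ_apply']

theorem sol_mem {V : Type} {T : Finset (Gate V)} (hpar : ∀ g ∈ T, g.Valid) (σ : V → Bool)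
    (t : ℕ) : ∀ v, 0 ≤ sol T σ t v ∧ sol T σ t v ≤ 1 := by
  induction t with
  | zero => exact fun v => bot_mem σ v
  | succ t ih =>
    intro v
    rw [sol_succ]
    exact step_mem hpar σ ih v

theorem sol_le_succ {V : Type} {T : Finset (Gate V)} (hpar : ∀ g ∈ T, g.Valid) {σ : V → Bool}
    (hbal : ∀ g ∈ T, Balanced σ g) (t : ℕ) : Le σ (sol T σ t) (sol T σ (t + 1)) := by
  induction t with
  | zero =>
    intro v
    have h1 := sol_mem hpar σ 1 v
    have h0 : sol T σ 0 v = bot σ v := rfl
    rw [h0]
    unfold bot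
    constructor
    · intro hv
      rw [if_pos hv]
      exact h1.1
    · intro hv
      rw [if_neg (by simp [hv])]
      exact h1.2
  | succ t ih =>
    have ih' : Le σ (sol T σ t) (step T σ (sol T σ t)) := by
      rw [← sol_succ]
      exact ih
    rw [sol_succ T σ (t + 1), sol_succ T σ t]
    exact step_mono hpar hbal ih'

/-- the signed move of a node is its absolute move -/
theorem sg_mul_eq_abs {V : Type} {σ : V → Bool} {x y : V → ℝ} (hxy : Le σ x y) (v : V) :
    sg (σ v) * (y v - x v) = |y v - x v| := by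
  unfold sg
  cases hv : σ v
  · have h := (hxy v).2 hv
    rw [if_neg (by simp), abs_of_nonpos (by linarith)]
    ring
  · have h := (hxy v).1 hv
    rw [if_pos rfl, abs_of_nonneg (by linarith)]
    ring

/-- For every generalized circuit with a balanced two-colouring `σ` of its nodes, every
`0 < ε < 1/3` and every `N` with `N * ε > 2 |V|`, one of the first `N` iterates of the
synchronous evaluation rule from the start state has values in `[0,1]` and `ε`-satisfies
every gate. -/
theorem result (V : Type) [Fintype V] (T : Finset (Gate V))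
    (hpar : ∀ g ∈ T, g.Valid)
    (hout : ∀ g ∈ T, ∀ g' ∈ T, g.out = g'.out → g = g')
    (σ : V → Bool) (hbal : ∀ g ∈ T, Balanced σ g)
    (ε : ℝ) (hε0 : 0 < ε) (hε1 : ε < 1 / 3)
    (N : ℕ) (hN : 2 * (Fintype.card V : ℝ) < N * ε) :
    ∃ t, t ≤ N ∧ (∀ v, 0 ≤ sol T σ t v ∧ sol T σ t v ≤ 1) ∧
      ∀ g ∈ T, Sat ε (sol T σ t) g := by
  classical
  -- a round in which no node moves by more than `ε / 2`
  have key : ∃ t, t < N ∧ ∀ v, |sol T σ (t + 1) v - sol T σ t v| ≤ ε / 2 := by
    by_contra hcon0
    have hcon : ∀ t, t < N → ∃ v, ε / 2 < |sol T σ (t + 1) v - sol T σ t v| := by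
      intro t ht
      by_contra hc
      exact hcon0 ⟨t, ht, fun v => not_lt.mp (fun hv => hc ⟨v, hv⟩)⟩
    -- the potential
    set Φ : ℕ → ℝ := fun t => ∑ v, sg (σ v) * sol T σ t v with hΦ
    have hstep : ∀ t, Φ (t + 1) - Φ t = ∑ v, |sol T σ (t + 1) v - sol T σ t v| := by
      intro t
      simp only [hΦ]
      rw [← Finset.sum_sub_distrib]
      refine Finset.sum_congr rfl (fun v _ => ?_)
      rw [← mul_sub]
      exact sg_mul_eq_abs (sol_le_succ hpar hbal t) v
    have hgrow : ∀ n, n ≤ N → Φ 0 + n * (ε / 2) ≤ Φ n := by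
      intro n
      induction n with
      | zero => intro _; simp
      | succ n ih =>
        intro hn
        have hn' : n < N := hn
        obtain ⟨v, hv⟩ := hcon n hn'
        have h1 := hstep n
        have h2 : |sol T σ (n + 1) v - sol T σ n v|
            ≤ ∑ w, |sol T σ (n + 1) w - sol T σ n w| :=
          Finset.single_le_sum (f := fun w => |sol T σ (n + 1) w - sol T σ n w|)
            (fun w _ => abs_nonneg _) (Finset.mem_univ v)
        have h3 := ih (le_of_lt hn')
        push_cast
        linarith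
    have hbound : Φ N - Φ 0 ≤ (Fintype.card V : ℝ) := by
      simp only [hΦ]
      rw [← Finset.sum_sub_distrib]
      have : ∀ v ∈ (Finset.univ : Finset V),
          sg (σ v) * sol T σ N v - sg (σ v) * sol T σ 0 v ≤ 1 := by
        intro v _
        have hN' := sol_mem hpar σ N v
        have h0' := sol_mem hpar σ 0 v
        unfold sg
        split_ifs <;> linarith [hN'.1, hN'.2, h0'.1, h0'.2]
      calc ∑ v, (sg (σ v) * sol T σ N v - sg (σ v) * sol T σ 0 v)
          ≤ ∑ _v : V, (1 : ℝ) := Finset.sum_le_sum this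
        _ = (Fintype.card V : ℝ) := by simp
    have h4 := hgrow N (le_refl N)
    linarith
  obtain ⟨t, htN, hclose⟩ := key
  refine ⟨t + 1, htN, sol_mem hpar σ (t + 1), ?_⟩
  intro g hg
  refine sat_of_close hε0 hε1 hclose (hpar g hg) ?_
  rw [sol_succ]
  exact step_out hout σ _ hg

end Vale.Agent.Results.P330.BalancedCircuits
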