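import Mathlib
import Vale.Agent.Results.P330.QuarterRegime

/-!
# P330 (PCP for PPAD): generalized circuits are explicitly solvable for every `ε ≥ 1/5`

For `ε ≥ 1/4` this is the hand-in `QuarterRegime`.  For `1/5 ≤ ε < 1/4` every node gets one of
seven states `0, …, 6`, the state `p` standing for the value `rep p * ε` (one of `ε, 2ε, 3ε, 4ε`).
The states are ordered like the integer intervals `[lo p, hi p]` under reverse inclusion, state
`0` (the interval `[1, 4]`) being the least one.  Every gate type has a table that is monotone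
for this order and whose outputs `ε`-satisfy the gate.  One synchronous round gives each node
the state that its gate prescribes; starting from the all-`0` state, `3 |V|` rounds reach a
state whose values `ε`-satisfy every gate.
-/

namespace Vale.Agent.Results.P330.FifthRegime

open Vale.Agent.Results.P330.QuarterRegime (Gate Sat)

/-- The value of a node state in units of `ε`. -/
def rep : Fin 7 → ℕ := ![2, 4, 3, 3, 1, 1, 2]

/-- Lower end of the interval attached to a state. -/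
def lo : Fin 7 → ℕ := ![1, 3, 2, 3, 1, 1, 1]

/-- Upper end of the interval attached to a state. -/
def hi : Fin 7 → ℕ := ![4, 4, 4, 3, 3, 1, 2]

/-- The order on states: reverse inclusion of the attached intervals. -/
def le7 (p q : Fin 7) : Bool := decide (lo p ≤ lo q) && decide (hi q ≤ hi p)

/-- Table of the Not gate. -/
def tNot : Fin 7 → Fin 7 := ![0, 4, 4, 3, 1, 1, 1]

/-- Table of the Or gate. -/
def tOr : Fin 7 → Fin 7 → Fin 7 :=
  ![![0, 1, 2, 1, 0, 0, 0],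
    ![1, 1, 1, 1, 1, 1, 1],
    ![2, 1, 2, 1, 2, 2, 2],
    ![1, 1, 1, 3, 3, 3, 3],
    ![0, 1, 2, 3, 4, 4, 4],
    ![0, 1, 2, 3, 4, 5, 5],
    ![0, 1, 2, 3, 4, 6, 6]]

/-- Table of the And gate. -/
def tAnd : Fin 7 → Fin 7 → Fin 7 :=
  ![![0, 0, 0, 4, 4, 5, 4],
    ![0, 1, 1, 3, 4, 5, 4],
    ![0, 1, 2, 3, 4, 5, 4],
    ![4, 3, 3, 3, 4, 5, 4],
    ![4, 4, 4, 4, 4, 5, 4],
    ![4, 4, 4, 4, 4, 5, 5],
    ![4, 4, 4, 4, 4, 5, 6]]

/-- Table of the Less gate. -/
def tLess : Fin 7 → Fin 7 → Fin 7 :=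
  ![![0, 1, 2, 1, 0, 4, 0],
    ![4, 3, 3, 3, 4, 4, 4],
    ![4, 3, 3, 3, 4, 4, 4],
    ![4, 3, 3, 3, 4, 4, 4],
    ![0, 1, 1, 1, 0, 4, 0],
    ![2, 1, 1, 1, 2, 3, 2],
    ![0, 1, 1, 1, 0, 4, 0]]

/-- Table of the Add gate. -/
def tAdd : Fin 7 → Fin 7 → Fin 7 :=
  ![![2, 1, 1, 1, 2, 2, 2],
    ![1, 1, 1, 1, 1, 1, 1],
    ![1, 1, 1, 1, 1, 1, 1],
    ![1, 1, 1, 1, 1, 3, 1],
    ![2, 1, 1, 1, 2, 2, 2],
    ![2, 1, 1, 1, 2, 3, 3],
    ![2, 1, 1, 1, 2, 3, 2]]

/-- Table of the Subtract gate. -/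
def tSub : Fin 7 → Fin 7 → Fin 7 :=
  ![![4, 4, 4, 4, 4, 4, 4],
    ![4, 4, 4, 5, 6, 6, 6],
    ![4, 4, 4, 5, 4, 4, 4],
    ![4, 4, 4, 5, 5, 5, 5],
    ![4, 4, 4, 5, 4, 4, 4],
    ![5, 5, 5, 5, 5, 5, 5],
    ![4, 4, 4, 5, 4, 4, 4]]

/-- First table of the Scale gate (used for `1/2 < α ≤ 2/3`). -/
def tS1 : Fin 7 → Fin 7 := ![0, 0, 0, 4, 4, 4, 4]

/-- Second table of the Scale gate (used for `2/3 < α ≤ 3/4`). -/
def tS2 : Fin 7 → Fin 7 := ![0, 0, 0, 3, 4, 4, 4]

/-- Table of the Scale gate with parameter `α`. -/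
noncomputable def tScale (α : ℝ) : Fin 7 → Fin 7 :=
  if α ≤ 1 / 2 then fun _ => 4
  else if α ≤ 2 / 3 then tS1
  else if α ≤ 3 / 4 then tS2
  else id

/-- State prescribed by a Constant gate with parameter `α`. -/
noncomputable def tConst (ε α : ℝ) : Fin 7 :=
  if α ≤ 2 * ε then 5 else if α ≤ 4 * ε then 3 else 1

/-- The state that the gate prescribes for its output node, given the states `s` of all
nodes. -/
noncomputable def next7 {V : Type} (ε : ℝ) (s : V → Fin 7) : Gate V → Fin 7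
  | .const α _ => tConst ε α
  | .scale α a _ => tScale α (s a)
  | .copy a _ => s a
  | .add a b _ => tAdd (s a) (s b)
  | .sub a b _ => tSub (s a) (s b)
  | .less a b _ => tLess (s a) (s b)
  | .neg a _ => tNot (s a)
  | .disj a b _ => tOr (s a) (s b)
  | .conj a b _ => tAnd (s a) (s b)

open Classical in
/-- One synchronous round: every node takes the state prescribed by the gate of `T` that has
it as output node (written as a maximum over the gates with that output, of which a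
generalized circuit has at most one); a node that is the output of no gate gets state `0`. -/
noncomputable def step7 {V : Type} (T : Finset (Gate V)) (ε : ℝ) (s : V → Fin 7) (v : V) :
    Fin 7 :=
  (T.filter fun g => g.out = v).sup (next7 ε s)

/-- The assignment reached after `3 |V|` synchronous rounds from the all-`0` state. -/
noncomputable def sol7 {V : Type} [Fintype V] (T : Finset (Gate V)) (ε : ℝ) (v : V) : ℝ :=
  (rep ((step7 T ε)^[3 * Fintype.card V] (fun _ => 0) v) : ℝ) * ε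

/-- The assignment of this hand-in: the three-state one of `QuarterRegime` if `ε ≥ 1/4`, the
seven-state one otherwise. -/
noncomputable def solFifth {V : Type} [Fintype V] (T : Finset (Gate V)) (ε : ℝ) : V → ℝ :=
  if 1 / 4 ≤ ε then Vale.Agent.Results.P330.QuarterRegime.sol T else sol7 T ε

/-- Height of a state in the order. -/
def ht : Fin 7 → ℕ := ![0, 2, 1, 3, 1, 3, 2]

theorem le7_refl : ∀ p : Fin 7, le7 p p = true := by decide

theorem le7_bot : ∀ p : Fin 7, le7 0 p = true := by decide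

theorem le7_trans : ∀ p q r : Fin 7, le7 p q = true → le7 q r = true → le7 p r = true := by
  decide

theorem ht_strict : ∀ p q : Fin 7, le7 p q = true → p ≠ q → ht p < ht q := by decide

theorem ht_mono : ∀ p q : Fin 7, le7 p q = true → ht p ≤ ht q := by decide

theorem ht_le : ∀ p : Fin 7, ht p ≤ 3 := by decide

theorem tNot_mono : ∀ p p' : Fin 7, le7 p p' = true → le7 (tNot p) (tNot p') = true := by decide

theorem tS1_mono : ∀ p p' : Fin 7, le7 p p' = true → le7 (tS1 p) (tS1 p') = true := by decide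

theorem tS2_mono : ∀ p p' : Fin 7, le7 p p' = true → le7 (tS2 p) (tS2 p') = true := by decide

theorem tOr_mono_l : ∀ p p' q : Fin 7, le7 p p' = true → le7 (tOr p q) (tOr p' q) = true := by
  decide

theorem tOr_mono_r : ∀ p q q' : Fin 7, le7 q q' = true → le7 (tOr p q) (tOr p q') = true := by
  decide

theorem tAnd_mono_l : ∀ p p' q : Fin 7, le7 p p' = true → le7 (tAnd p q) (tAnd p' q) = true := by
  decide

theorem tAnd_mono_r : ∀ p q q' : Fin 7, le7 q q' = true → le7 (tAnd p q) (tAnd p q') = true := by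
  decide

theorem tLess_mono_l : ∀ p p' q : Fin 7, le7 p p' = true →
    le7 (tLess p q) (tLess p' q) = true := by
  decide

theorem tLess_mono_r : ∀ p q q' : Fin 7, le7 q q' = true →
    le7 (tLess p q) (tLess p q') = true := by
  decide

theorem tAdd_mono_l : ∀ p p' q : Fin 7, le7 p p' = true → le7 (tAdd p q) (tAdd p' q) = true := by
  decide

theorem tAdd_mono_r : ∀ p q q' : Fin 7, le7 q q' = true → le7 (tAdd p q) (tAdd p q') = true := by
  decide

theorem tSub_mono_l : ∀ p p' q : Fin 7, le7 p p' = true → le7 (tSub p q) (tSub p' q) = true := by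
  decide

theorem tSub_mono_r : ∀ p q q' : Fin 7, le7 q q' = true → le7 (tSub p q) (tSub p q') = true := by
  decide

theorem rep_bounds : ∀ p : Fin 7, 1 ≤ rep p ∧ rep p ≤ 4 := by decide

theorem not_ok : ∀ p : Fin 7, (rep p ≤ 1 → rep (tNot p) = 4) ∧ (4 ≤ rep p → rep (tNot p) ≤ 1) := by
  decide

theorem or_ok : ∀ p q : Fin 7, ((4 ≤ rep p ∨ 4 ≤ rep q) → rep (tOr p q) = 4) ∧
    ((rep p ≤ 1 ∧ rep q ≤ 1) → rep (tOr p q) ≤ 1) := by
  decide

theorem and_ok : ∀ p q : Fin 7, ((4 ≤ rep p ∧ 4 ≤ rep q) → rep (tAnd p q) = 4) ∧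
    ((rep p ≤ 1 ∨ rep q ≤ 1) → rep (tAnd p q) ≤ 1) := by
  decide

theorem less_ok : ∀ p q : Fin 7, (rep p + 1 < rep q → rep (tLess p q) = 4) ∧
    (rep q + 1 < rep p → rep (tLess p q) ≤ 1) := by
  decide

theorem add_ok : ∀ p q : Fin 7,
    (rep p + rep q ≤ 4 ∧ rep (tAdd p q) ≤ rep p + rep q + 1 ∧ rep p + rep q ≤ rep (tAdd p q) + 1) ∨
      (5 ≤ rep p + rep q ∧ rep (tAdd p q) = 4) := by
  decide

theorem sub_ok : ∀ p q : Fin 7,
    (rep p ≤ rep q ∧ rep (tSub p q) ≤ 1) ∨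
      (rep q ≤ rep p ∧ rep (tSub p q) + rep q ≤ rep p + 1 ∧ rep p ≤ rep (tSub p q) + rep q + 1) := by
  decide

theorem s1_ok : ∀ p : Fin 7, 2 * rep (tS1 p) ≤ 2 + rep p ∧ 2 * rep p ≤ 3 * rep (tS1 p) + 3 := by
  decide

theorem s2_ok : ∀ p : Fin 7,
    3 * rep (tS2 p) ≤ 3 + 2 * rep p ∧ 3 * rep p ≤ 4 * rep (tS2 p) + 4 := by
  decide

theorem rep_one : rep 1 = 4 := by decide

theorem rep_three : rep 3 = 3 := by decide

theorem rep_four : rep 4 = 1 := by decide

theorem rep_five : rep 5 = 1 := by decide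

theorem tScale_mono (α : ℝ) (p p' : Fin 7) (h : le7 p p' = true) :
    le7 (tScale α p) (tScale α p') = true := by
  unfold tScale
  split_ifs
  · exact le7_refl _
  · exact tS1_mono p p' h
  · exact tS2_mono p p' h
  · exact h

theorem next7_mono {V : Type} (ε : ℝ) (s s' : V → Fin 7) (h : ∀ v, le7 (s v) (s' v) = true)
    (g : Gate V) : le7 (next7 ε s g) (next7 ε s' g) = true := by
  cases g with
  | const α z => exact le7_refl _
  | scale α a z => exact tScale_mono α _ _ (h a)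
  | copy a z => exact h a
  | add a b z =>
    exact le7_trans _ _ _ (tAdd_mono_l _ _ _ (h a)) (tAdd_mono_r _ _ _ (h b))
  | sub a b z =>
    exact le7_trans _ _ _ (tSub_mono_l _ _ _ (h a)) (tSub_mono_r _ _ _ (h b))
  | less a b z =>
    exact le7_trans _ _ _ (tLess_mono_l _ _ _ (h a)) (tLess_mono_r _ _ _ (h b))
  | neg a z => exact tNot_mono _ _ (h a)
  | disj a b z =>
    exact le7_trans _ _ _ (tOr_mono_l _ _ _ (h a)) (tOr_mono_r _ _ _ (h b))
  | conj a b z =>
    exact le7_trans _ _ _ (tAnd_mono_l _ _ _ (h a)) (tAnd_mono_r _ _ _ (h b))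

theorem step7_out {V : Type} (T : Finset (Gate V))
    (hout : ∀ g ∈ T, ∀ g' ∈ T, g.out = g'.out → g = g')
    (ε : ℝ) (s : V → Fin 7) (g : Gate V) (hg : g ∈ T) : step7 T ε s g.out = next7 ε s g := by
  classical
  unfold step7
  have hf : (T.filter fun g' => g'.out = g.out) = {g} := by
    ext g'
    simp only [Finset.mem_filter, Finset.mem_singleton]
    exact ⟨fun h => hout g' h.1 g hg h.2, fun h => by rw [h]; exact ⟨hg, rfl⟩⟩
  rw [hf, Finset.sup_singleton]

theorem step7_none {V : Type} (T : Finset (Gate V)) (ε : ℝ) (s : V → Fin 7) (v : V)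
    (hv : ¬ ∃ g ∈ T, g.out = v) : step7 T ε s v = 0 := by
  classical
  unfold step7
  have hf : (T.filter fun g' => g'.out = v) = ∅ := by
    ext g'
    simp only [Finset.mem_filter, Finset.notMem_empty, iff_false]
    exact fun h => hv ⟨g', h.1, h.2⟩
  rw [hf, Finset.sup_empty]
  rfl

theorem step7_mono {V : Type} (T : Finset (Gate V))
    (hout : ∀ g ∈ T, ∀ g' ∈ T, g.out = g'.out → g = g')
    (ε : ℝ) (s s' : V → Fin 7) (h : ∀ v, le7 (s v) (s' v) = true) (v : V) :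
    le7 (step7 T ε s v) (step7 T ε s' v) = true := by
  by_cases hv : ∃ g ∈ T, g.out = v
  · obtain ⟨g, hg, rfl⟩ := hv
    rw [step7_out T hout ε s g hg, step7_out T hout ε s' g hg]
    exact next7_mono ε s s' h g
  · rw [step7_none T ε s v hv]
    exact le7_bot _

/-- The total height of a state vector. -/
def phi {V : Type} [Fintype V] (s : V → Fin 7) : ℕ := ∑ v, ht (s v)

theorem phi_le {V : Type} [Fintype V] (s : V → Fin 7) : phi s ≤ 3 * Fintype.card V := by
  unfold phi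
  have h := Finset.sum_le_card_nsmul (Finset.univ : Finset V) (fun v => ht (s v)) 3
    (fun v _ => ht_le (s v))
  rw [Finset.card_univ, smul_eq_mul, mul_comm] at h
  exact h

theorem phi_lt {V : Type} [Fintype V] (s s' : V → Fin 7) (h : ∀ v, le7 (s v) (s' v) = true)
    (hne : s ≠ s') : phi s < phi s' := by
  unfold phi
  have hex : ∃ v, s v ≠ s' v := by
    by_contra hcon
    apply hne
    funext v
    by_contra hv
    exact hcon ⟨v, hv⟩
  obtain ⟨v, hv⟩ := hex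
  exact Finset.sum_lt_sum (fun w _ => ht_mono _ _ (h w))
    ⟨v, Finset.mem_univ v, ht_strict _ _ (h v) hv⟩

theorem iter7_mono {V : Type} (T : Finset (Gate V))
    (hout : ∀ g ∈ T, ∀ g' ∈ T, g.out = g'.out → g = g') (ε : ℝ) (k : ℕ) :
    ∀ v, le7 ((step7 T ε)^[k] (fun _ => 0) v) ((step7 T ε)^[k + 1] (fun _ => 0) v) = true := by
  induction k with
  | zero => intro v; exact le7_bot _
  | succ k ih =>
    intro v
    have e1 := Function.iterate_succ_apply' (step7 T ε) k (fun _ => 0)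
    have e2 := Function.iterate_succ_apply' (step7 T ε) (k + 1) (fun _ => 0)
    have key := step7_mono T hout ε _ _ ih v
    rw [← e1, ← e2] at key
    exact key

theorem iter7_fixed {V : Type} [Fintype V] (T : Finset (Gate V))
    (hout : ∀ g ∈ T, ∀ g' ∈ T, g.out = g'.out → g = g') (ε : ℝ) :
    step7 T ε ((step7 T ε)^[3 * Fintype.card V] (fun _ => 0)) =
      (step7 T ε)^[3 * Fintype.card V] (fun _ => 0) := by
  have P : ∀ k : ℕ, (step7 T ε)^[k] (fun _ => 0) = (step7 T ε)^[k + 1] (fun _ => 0) ∨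
      k + 1 ≤ phi ((step7 T ε)^[k + 1] (fun _ => 0)) := by
    intro k
    induction k with
    | zero =>
      by_cases h0 : (step7 T ε)^[0] (fun _ => 0) = (step7 T ε)^[0 + 1] (fun _ => 0)
      · exact Or.inl h0
      · right
        have := phi_lt _ _ (iter7_mono T hout ε 0) h0
        omega
    | succ k ih =>
      by_cases h0 : (step7 T ε)^[k + 1] (fun _ => 0) = (step7 T ε)^[k + 1 + 1] (fun _ => 0)
      · exact Or.inl h0
      · right
        rcases ih with ih | ih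
        · exfalso
          apply h0
          have e1 := Function.iterate_succ_apply' (step7 T ε) k (fun _ => 0)
          have e2 := Function.iterate_succ_apply' (step7 T ε) (k + 1) (fun _ => 0)
          exact (e2.trans ((congrArg (step7 T ε) ih.symm).trans e1.symm)).symm
        · have := phi_lt _ _ (iter7_mono T hout ε (k + 1)) h0
          omega
  rcases P (3 * Fintype.card V) with h | h
  · rw [← Function.iterate_succ_apply' (step7 T ε) (3 * Fintype.card V)]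
    exact h.symm
  · have := phi_le ((step7 T ε)^[3 * Fintype.card V + 1] (fun _ => 0))
    omega

theorem low_of (ε : ℝ) (h0 : 0 < ε) (k : ℕ) (h : (k : ℝ) * ε ≤ ε) : k ≤ 1 := by
  have h1 : (k : ℝ) ≤ 1 := by
    by_contra hc
    rw [not_le] at hc
    nlinarith
  exact_mod_cast h1

theorem high_of (ε : ℝ) (h0 : 0 < ε) (h2 : ε < 1 / 4) (k : ℕ) (h : 1 - ε ≤ (k : ℝ) * ε) :
    4 ≤ k := by
  by_contra hc
  have hk : k ≤ 3 := by omega
  have h3 : (k : ℝ) ≤ 3 := by exact_mod_cast hk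
  nlinarith [mul_le_mul_of_nonneg_right h3 h0.le]

theorem low_val (ε : ℝ) (h0 : 0 < ε) (k : ℕ) (hk : k ≤ 1) : (k : ℝ) * ε ≤ ε := by
  have h1 : (k : ℝ) ≤ 1 := by exact_mod_cast hk
  nlinarith

theorem high_val (ε : ℝ) (h1 : 1 / 5 ≤ ε) (k : ℕ) (hk : k = 4) : 1 - ε ≤ (k : ℝ) * ε := by
  subst hk
  push_cast
  linarith

theorem sat7_neg (ε : ℝ) (h1 : 1 / 5 ≤ ε) (h2 : ε < 1 / 4) (p : Fin 7) :
    ((rep p : ℝ) * ε ≤ ε → 1 - ε ≤ (rep (tNot p) : ℝ) * ε) ∧
      (1 - ε ≤ (rep p : ℝ) * ε → (rep (tNot p) : ℝ) * ε ≤ ε) := by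
  have h0 : 0 < ε := by linarith
  refine ⟨fun h => ?_, fun h => ?_⟩
  · exact high_val ε h1 _ ((not_ok p).1 (low_of ε h0 _ h))
  · exact low_val ε h0 _ ((not_ok p).2 (high_of ε h0 h2 _ h))

theorem sat7_disj (ε : ℝ) (h1 : 1 / 5 ≤ ε) (h2 : ε < 1 / 4) (p q : Fin 7) :
    ((1 - ε ≤ (rep p : ℝ) * ε ∨ 1 - ε ≤ (rep q : ℝ) * ε) → 1 - ε ≤ (rep (tOr p q) : ℝ) * ε) ∧
      (((rep p : ℝ) * ε ≤ ε ∧ (rep q : ℝ) * ε ≤ ε) → (rep (tOr p q) : ℝ) * ε ≤ ε) := by
  have h0 : 0 < ε := by linarith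
  refine ⟨fun h => ?_, fun h => ?_⟩
  · refine high_val ε h1 _ ((or_ok p q).1 ?_)
    rcases h with h | h
    · exact Or.inl (high_of ε h0 h2 _ h)
    · exact Or.inr (high_of ε h0 h2 _ h)
  · exact low_val ε h0 _ ((or_ok p q).2 ⟨low_of ε h0 _ h.1, low_of ε h0 _ h.2⟩)

theorem sat7_conj (ε : ℝ) (h1 : 1 / 5 ≤ ε) (h2 : ε < 1 / 4) (p q : Fin 7) :
    ((1 - ε ≤ (rep p : ℝ) * ε ∧ 1 - ε ≤ (rep q : ℝ) * ε) → 1 - ε ≤ (rep (tAnd p q) : ℝ) * ε) ∧
      (((rep p : ℝ) * ε ≤ ε ∨ (rep q : ℝ) * ε ≤ ε) → (rep (tAnd p q) : ℝ) * ε ≤ ε) := by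
  have h0 : 0 < ε := by linarith
  refine ⟨fun h => ?_, fun h => ?_⟩
  · exact high_val ε h1 _ ((and_ok p q).1 ⟨high_of ε h0 h2 _ h.1, high_of ε h0 h2 _ h.2⟩)
  · refine low_val ε h0 _ ((and_ok p q).2 ?_)
    rcases h with h | h
    · exact Or.inl (low_of ε h0 _ h)
    · exact Or.inr (low_of ε h0 _ h)

theorem sat7_less (ε : ℝ) (h1 : 1 / 5 ≤ ε) (h2 : ε < 1 / 4) (p q : Fin 7) :
    ((rep p : ℝ) * ε < (rep q : ℝ) * ε - ε → 1 - ε ≤ (rep (tLess p q) : ℝ) * ε) ∧
      ((rep q : ℝ) * ε + ε < (rep p : ℝ) * ε → (rep (tLess p q) : ℝ) * ε ≤ ε) := by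
  have h0 : 0 < ε := by linarith
  refine ⟨fun h => ?_, fun h => ?_⟩
  · refine high_val ε h1 _ ((less_ok p q).1 ?_)
    have h3 : ((rep p + 1 : ℕ) : ℝ) < (rep q : ℝ) := by
      push_cast
      by_contra hc
      rw [not_lt] at hc
      nlinarith
    exact_mod_cast h3
  · refine low_val ε h0 _ ((less_ok p q).2 ?_)
    have h3 : ((rep q + 1 : ℕ) : ℝ) < (rep p : ℝ) := by
      push_cast
      by_contra hc
      rw [not_lt] at hc
      nlinarith
    exact_mod_cast h3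

theorem sat7_add (ε : ℝ) (h1 : 1 / 5 ≤ ε) (h2 : ε < 1 / 4) (p q : Fin 7) :
    |(rep (tAdd p q) : ℝ) * ε - min ((rep p : ℝ) * ε + (rep q : ℝ) * ε) 1| ≤ ε := by
  have h0 : 0 < ε := by linarith
  rcases add_ok p q with ⟨ha, hb, hc⟩ | ⟨ha, hb⟩
  · have ha' : (rep p : ℝ) + (rep q : ℝ) ≤ 4 := by exact_mod_cast ha
    have hb' : (rep (tAdd p q) : ℝ) ≤ (rep p : ℝ) + (rep q : ℝ) + 1 := by exact_mod_cast hb
    have hc' : (rep p : ℝ) + (rep q : ℝ) ≤ (rep (tAdd p q) : ℝ) + 1 := by exact_mod_cast hc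
    rw [min_eq_left (by nlinarith), abs_le]
    constructor <;> nlinarith
  · have ha' : (5 : ℝ) ≤ (rep p : ℝ) + (rep q : ℝ) := by exact_mod_cast ha
    rw [min_eq_right (by nlinarith), hb, abs_le]
    push_cast
    constructor <;> linarith

theorem sat7_sub (ε : ℝ) (h1 : 1 / 5 ≤ ε) (h2 : ε < 1 / 4) (p q : Fin 7) :
    |(rep (tSub p q) : ℝ) * ε - max ((rep p : ℝ) * ε - (rep q : ℝ) * ε) 0| ≤ ε := by
  have h0 : 0 < ε := by linarith
  have hn : (0 : ℝ) ≤ (rep (tSub p q) : ℝ) := Nat.cast_nonneg _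
  rcases sub_ok p q with ⟨ha, hb⟩ | ⟨ha, hb, hc⟩
  · have ha' : (rep p : ℝ) ≤ (rep q : ℝ) := by exact_mod_cast ha
    have hb' : (rep (tSub p q) : ℝ) ≤ 1 := by exact_mod_cast hb
    rw [max_eq_right (by nlinarith), abs_le]
    constructor <;> nlinarith
  · have ha' : (rep q : ℝ) ≤ (rep p : ℝ) := by exact_mod_cast ha
    have hb' : (rep (tSub p q) : ℝ) + (rep q : ℝ) ≤ (rep p : ℝ) + 1 := by exact_mod_cast hb
    have hc' : (rep p : ℝ) ≤ (rep (tSub p q) : ℝ) + (rep q : ℝ) + 1 := by exact_mod_cast hc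
    rw [max_eq_left (by nlinarith), abs_le]
    constructor <;> nlinarith

theorem scale_aux (ε α a1 a2 : ℝ) (k c : ℕ) (h0 : 0 < ε) (h1 : a1 ≤ α) (h2 : α ≤ a2)
    (hc1 : (c : ℝ) ≤ 1 + a1 * k) (hc2 : a2 * k ≤ c + 1) :
    |(c : ℝ) * ε - α * ((k : ℝ) * ε)| ≤ ε := by
  have hk : (0 : ℝ) ≤ k := Nat.cast_nonneg k
  have e1 : (c : ℝ) - α * k ≤ 1 := by nlinarith [mul_le_mul_of_nonneg_right h1 hk]
  have e2 : -1 ≤ (c : ℝ) - α * k := by nlinarith [mul_le_mul_of_nonneg_right h2 hk]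
  have e3 : (c : ℝ) * ε - α * ((k : ℝ) * ε) = ((c : ℝ) - α * k) * ε := by ring
  rw [e3, abs_le]
  constructor <;> nlinarith

theorem sat7_scale (ε : ℝ) (h1 : 1 / 5 ≤ ε) (α : ℝ) (hα0 : 0 ≤ α) (hα1 : α ≤ 1) (p : Fin 7) :
    |(rep (tScale α p) : ℝ) * ε - α * ((rep p : ℝ) * ε)| ≤ ε := by
  have h0 : 0 < ε := by linarith
  have hp : (rep p : ℝ) ≤ 4 := by exact_mod_cast (rep_bounds p).2
  unfold tScale
  split_ifs with c1 c2 c3
  · refine scale_aux ε α 0 (1 / 2) _ _ h0 hα0 c1 ?_ ?_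
    · rw [rep_four]; push_cast; linarith
    · rw [rep_four]; push_cast; linarith
  · rw [not_le] at c1
    obtain ⟨ha, hb⟩ := s1_ok p
    have ha' : 2 * (rep (tS1 p) : ℝ) ≤ 2 + (rep p : ℝ) := by exact_mod_cast ha
    have hb' : 2 * (rep p : ℝ) ≤ 3 * (rep (tS1 p) : ℝ) + 3 := by exact_mod_cast hb
    refine scale_aux ε α (1 / 2) (2 / 3) _ _ h0 c1.le c2 ?_ ?_ <;> linarith
  · rw [not_le] at c2
    obtain ⟨ha, hb⟩ := s2_ok p
    have ha' : 3 * (rep (tS2 p) : ℝ) ≤ 3 + 2 * (rep p : ℝ) := by exact_mod_cast ha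
    have hb' : 3 * (rep p : ℝ) ≤ 4 * (rep (tS2 p) : ℝ) + 4 := by exact_mod_cast hb
    refine scale_aux ε α (2 / 3) (3 / 4) _ _ h0 c2.le c3 ?_ ?_ <;> linarith
  · rw [not_le] at c3
    refine scale_aux ε α (3 / 4) 1 _ _ h0 c3.le hα1 ?_ ?_
    · simp only [id]; linarith
    · simp only [id]; linarith

theorem sat7_const (ε : ℝ) (h1 : 1 / 5 ≤ ε) (α : ℝ) (hα0 : 0 ≤ α) (hα1 : α ≤ 1) :
    |(rep (tConst ε α) : ℝ) * ε - α| ≤ ε := by
  unfold tConst
  split_ifs with c1 c2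
  · rw [rep_five, abs_le]; push_cast; constructor <;> linarith
  · rw [not_le] at c1
    rw [rep_three, abs_le]; push_cast; constructor <;> linarith
  · rw [not_le] at c2
    rw [rep_one, abs_le]; push_cast; constructor <;> linarith

/-- For every generalized circuit and every `ε ≥ 1/5`, the assignment `solFifth T ε` takes
values in `[0,1]` and `ε`-satisfies every gate. -/
theorem result (V : Type) [Fintype V] (T : Finset (Gate V))
    (hpar : ∀ g ∈ T, g.Valid)
    (hout : ∀ g ∈ T, ∀ g' ∈ T, g.out = g'.out → g = g')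
    (ε : ℝ) (hε : 1 / 5 ≤ ε) :
    (∀ v, 0 ≤ solFifth T ε v ∧ solFifth T ε v ≤ 1) ∧ ∀ g ∈ T, Sat ε (solFifth T ε) g := by
  by_cases hq : 1 / 4 ≤ ε
  · have hsol : solFifth T ε = Vale.Agent.Results.P330.QuarterRegime.sol T := by
      unfold solFifth; rw [if_pos hq]
    rw [hsol]
    obtain ⟨hv, hs⟩ := Vale.Agent.Results.P330.QuarterRegime.result V T hpar hout ε hq
    refine ⟨fun v => ?_, hs⟩
    rcases hv v with h | h | h <;> rw [h] <;> constructor <;> norm_num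
  · rw [not_le] at hq
    have h0 : 0 < ε := by linarith
    have hsol : solFifth T ε = sol7 T ε := by
      unfold solFifth; rw [if_neg (not_le.mpr hq)]
    rw [hsol]
    set s : V → Fin 7 := (step7 T ε)^[3 * Fintype.card V] (fun _ => 0) with hs
    have hsol7 : sol7 T ε = fun v => (rep (s v) : ℝ) * ε := rfl
    rw [hsol7]
    refine ⟨fun v => ?_, ?_⟩
    · have hb : (rep (s v) : ℝ) ≤ 4 := by exact_mod_cast (rep_bounds (s v)).2
      have hn : (0 : ℝ) ≤ (rep (s v) : ℝ) := Nat.cast_nonneg _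
      constructor
      · positivity
      · nlinarith
    intro g hg
    have hfix : step7 T ε s = s := iter7_fixed T hout ε
    have hz : s g.out = next7 ε s g := by
      rw [← step7_out T hout ε s g hg, hfix]
    have hv := hpar g hg
    cases g with
    | const α z =>
      obtain ⟨ha0, ha1⟩ : 0 ≤ α ∧ α ≤ 1 := hv
      have hz' : s z = tConst ε α := hz
      show |(rep (s z) : ℝ) * ε - α| ≤ ε
      rw [hz']; exact sat7_const ε hε α ha0 ha1
    | scale α a z =>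
      obtain ⟨ha0, ha1⟩ : 0 ≤ α ∧ α ≤ 1 := hv
      have hz' : s z = tScale α (s a) := hz
      show |(rep (s z) : ℝ) * ε - α * ((rep (s a) : ℝ) * ε)| ≤ ε
      rw [hz']; exact sat7_scale ε hε α ha0 ha1 _
    | copy a z =>
      have hz' : s z = s a := hz
      show |(rep (s z) : ℝ) * ε - (rep (s a) : ℝ) * ε| ≤ ε
      rw [hz', sub_self, abs_zero]; exact h0.le
    | add a b z =>
      have hz' : s z = tAdd (s a) (s b) := hz
      show |(rep (s z) : ℝ) * ε - min ((rep (s a) : ℝ) * ε + (rep (s b) : ℝ) * ε) 1| ≤ ε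
      rw [hz']; exact sat7_add ε hε hq _ _
    | sub a b z =>
      have hz' : s z = tSub (s a) (s b) := hz
      show |(rep (s z) : ℝ) * ε - max ((rep (s a) : ℝ) * ε - (rep (s b) : ℝ) * ε) 0| ≤ ε
      rw [hz']; exact sat7_sub ε hε hq _ _
    | less a b z =>
      have hz' : s z = tLess (s a) (s b) := hz
      show ((rep (s a) : ℝ) * ε < (rep (s b) : ℝ) * ε - ε → 1 - ε ≤ (rep (s z) : ℝ) * ε) ∧
        ((rep (s b) : ℝ) * ε + ε < (rep (s a) : ℝ) * ε → (rep (s z) : ℝ) * ε ≤ ε)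
      rw [hz']; exact sat7_less ε hε hq _ _
    | neg a z =>
      have hz' : s z = tNot (s a) := hz
      show ((rep (s a) : ℝ) * ε ≤ ε → 1 - ε ≤ (rep (s z) : ℝ) * ε) ∧
        (1 - ε ≤ (rep (s a) : ℝ) * ε → (rep (s z) : ℝ) * ε ≤ ε)
      rw [hz']; exact sat7_neg ε hε hq _
    | disj a b z =>
      have hz' : s z = tOr (s a) (s b) := hz
      show ((1 - ε ≤ (rep (s a) : ℝ) * ε ∨ 1 - ε ≤ (rep (s b) : ℝ) * ε) →
          1 - ε ≤ (rep (s z) : ℝ) * ε) ∧
        (((rep (s a) : ℝ) * ε ≤ ε ∧ (rep (s b) : ℝ) * ε ≤ ε) → (rep (s z) : ℝ) * ε ≤ ε)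
      rw [hz']; exact sat7_disj ε hε hq _ _
    | conj a b z =>
      have hz' : s z = tAnd (s a) (s b) := hz
      show ((1 - ε ≤ (rep (s a) : ℝ) * ε ∧ 1 - ε ≤ (rep (s b) : ℝ) * ε) →
          1 - ε ≤ (rep (s z) : ℝ) * ε) ∧
        (((rep (s a) : ℝ) * ε ≤ ε ∨ (rep (s b) : ℝ) * ε ≤ ε) → (rep (s z) : ℝ) * ε ≤ ε)
      rw [hz']; exact sat7_conj ε hε hq _ _

end Vale.Agent.Results.P330.FifthRegime
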