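import Vale.Agent.Results.P330.QuarterRegime

/-!
# P330 (PCP for PPAD): half of the gates of a generalized circuit can always be satisfied

For every generalized circuit and every `ε ≥ 0`:

* the explicit assignment `logicSol T ε` has values in `[0,1]` and `ε`-satisfies every Constant,
  Not, Or and And gate simultaneously;
* the all-zero assignment `ε`-satisfies every gate that is neither a Constant nor a Not gate;
* hence one of these two assignments `ε`-satisfies at least half of the gates.

Gates and `ε`-satisfaction are those of `QuarterRegime` (the nine gate types of the problem).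
For `ε < 1/4` the assignment `logicSol T ε` puts the parameter `α` on the output node of every
Constant gate and `2 y - 1/2` on every other node, where `y` (values `1/4, 1/2, 3/4`) is the
assignment `sol` of `QuarterRegime` for the auxiliary circuit consisting of the Not, Or, And
gates of `T` and of a gate Constant `0` (resp. Constant `1`) for every Constant gate of `T`
with `α ≤ ε` (resp. `α ≥ 1 - ε`).
-/

namespace Vale.Agent.Results.P330.HalfOfGates

open Vale.Agent.Results.P330.QuarterRegime

/-- Constant, Not, Or and And gates. -/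
def IsLogic {V : Type} : Gate V → Prop
  | .const _ _ => True
  | .neg _ _ => True
  | .disj _ _ _ => True
  | .conj _ _ _ => True
  | _ => False

/-- Constant and Not gates. -/
def IsConstOrNot {V : Type} : Gate V → Prop
  | .const _ _ => True
  | .neg _ _ => True
  | _ => False

/-- The all-zero assignment satisfies every gate that is neither Constant nor Not. -/
theorem zero_sat {V : Type} (ε : ℝ) (hε0 : 0 ≤ ε) (g : Gate V) (hg : ¬ IsConstOrNot g) :
    Sat ε (fun _ : V => (0 : ℝ)) g := by
  cases g with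
  | const α z => exact absurd trivial hg
  | scale α a z =>
    show |(0 : ℝ) - α * 0| ≤ ε
    simpa using hε0
  | copy a z =>
    show |(0 : ℝ) - 0| ≤ ε
    simpa using hε0
  | add a b z =>
    show |(0 : ℝ) - min (0 + 0) 1| ≤ ε
    simpa using hε0
  | sub a b z =>
    show |(0 : ℝ) - max (0 - 0) 0| ≤ ε
    simpa using hε0
  | less a b z =>
    show ((0 : ℝ) < 0 - ε → 1 - ε ≤ 0) ∧ ((0 : ℝ) + ε < 0 → (0 : ℝ) ≤ ε)
    exact ⟨fun h => by linarith, fun _ => hε0⟩
  | neg a z => exact absurd trivial hg
  | disj a b z =>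
    show ((1 - ε ≤ (0 : ℝ) ∨ 1 - ε ≤ (0 : ℝ)) → 1 - ε ≤ 0) ∧
      (((0 : ℝ) ≤ ε ∧ (0 : ℝ) ≤ ε) → (0 : ℝ) ≤ ε)
    exact ⟨fun h => by rcases h with h | h <;> exact h, fun _ => hε0⟩
  | conj a b z =>
    show ((1 - ε ≤ (0 : ℝ) ∧ 1 - ε ≤ (0 : ℝ)) → 1 - ε ≤ 0) ∧
      (((0 : ℝ) ≤ ε ∨ (0 : ℝ) ≤ ε) → (0 : ℝ) ≤ ε)
    exact ⟨fun h => h.1, fun _ => hε0⟩

/-- The gates kept in the auxiliary circuit. -/
def Keep {V : Type} (ε : ℝ) : Gate V → Prop
  | .const α _ => α ≤ ε ∨ 1 - ε ≤ α
  | .neg _ _ => True
  | .disj _ _ _ => True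
  | .conj _ _ _ => True
  | _ => False

open Classical in
/-- Constant gates are rounded to `Const(0)` or `Const(1)`. -/
noncomputable def rnd {V : Type} (ε : ℝ) : Gate V → Gate V
  | .const α z => if α ≤ ε then .const 0 z else .const 1 z
  | g => g

theorem rnd_out {V : Type} (ε : ℝ) (g : Gate V) : (rnd ε g).out = g.out := by
  cases g with
  | const α z =>
    show (if α ≤ ε then Gate.const 0 z else Gate.const 1 z).out = z
    split_ifs <;> rfl
  | scale α a z => rfl
  | copy a z => rfl
  | add a b z => rfl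
  | sub a b z => rfl
  | less a b z => rfl
  | neg a z => rfl
  | disj a b z => rfl
  | conj a b z => rfl

theorem rnd_valid {V : Type} (ε : ℝ) (g : Gate V) (hk : Keep ε g) : (rnd ε g).Valid := by
  cases g with
  | const α z =>
    show (if α ≤ ε then Gate.const 0 z else Gate.const 1 z).Valid
    split_ifs
    · exact ⟨le_refl _, zero_le_one⟩
    · exact ⟨zero_le_one, le_refl _⟩
  | scale α a z => exact absurd hk (by simp [Keep])
  | copy a z => trivial
  | add a b z => trivial
  | sub a b z => trivial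
  | less a b z => trivial
  | neg a z => trivial
  | disj a b z => trivial
  | conj a b z => trivial

open Classical in
/-- The auxiliary circuit: the Not, Or, And gates of `T`, and a gate Constant `0` (resp.
Constant `1`) for every Constant gate of `T` with parameter `α ≤ ε` (resp. `α ≥ 1 - ε`). -/
noncomputable def aux {V : Type} (T : Finset (Gate V)) (ε : ℝ) : Finset (Gate V) :=
  (T.filter (Keep ε)).image (rnd ε)

theorem mem_aux {V : Type} (T : Finset (Gate V)) (ε : ℝ) (g' : Gate V) :
    g' ∈ aux T ε ↔ ∃ g ∈ T, Keep ε g ∧ rnd ε g = g' := by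
  classical
  unfold aux
  rw [Finset.mem_image]
  constructor
  · rintro ⟨g, hg, rfl⟩
    rw [Finset.mem_filter] at hg
    exact ⟨g, hg.1, hg.2, rfl⟩
  · rintro ⟨g, hg, hk, rfl⟩
    exact ⟨g, Finset.mem_filter.mpr ⟨hg, hk⟩, rfl⟩

open Classical in
/-- The assignment that satisfies all Constant, Not, Or and And gates: for `ε ≥ 1/4` it is
`sol T` of `QuarterRegime`; for `ε < 1/4` the output node of a Constant gate of `T` gets the
parameter of that gate, and every other node `v` gets `2 y v - 1/2`, where `y` is `sol` of the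
auxiliary circuit `aux T ε`. -/
noncomputable def logicSol {V : Type} [Fintype V] (T : Finset (Gate V)) (ε : ℝ) (v : V) : ℝ :=
  if 1 / 4 ≤ ε then sol T v
  else if h : ∃ α, Gate.const α v ∈ T then h.choose
  else 2 * sol (aux T ε) v - 1 / 2

/-- All Constant, Not, Or and And gates are satisfied by `logicSol` when `0 ≤ ε < 1/4`. -/
theorem logic_sat (V : Type) [Fintype V] (T : Finset (Gate V))
    (hpar : ∀ g ∈ T, g.Valid)
    (hout : ∀ g ∈ T, ∀ g' ∈ T, g.out = g'.out → g = g')
    (ε : ℝ) (hε0 : 0 ≤ ε) (hε4 : ε < 1 / 4) :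
    (∀ v, 0 ≤ logicSol T ε v ∧ logicSol T ε v ≤ 1) ∧
      ∀ g ∈ T, IsLogic g → Sat ε (logicSol T ε) g := by
  classical
  set T' : Finset (Gate V) := aux T ε with hT'
  have hmem : ∀ g ∈ T, Keep ε g → rnd ε g ∈ T' := by
    intro g hg hk
    rw [hT', mem_aux]
    exact ⟨g, hg, hk, rfl⟩
  have hpar' : ∀ g ∈ T', g.Valid := by
    intro g' hg'
    rw [hT', mem_aux] at hg'
    obtain ⟨g, hg, hk, rfl⟩ := hg'
    exact rnd_valid ε g hk
  have hout' : ∀ g ∈ T', ∀ g' ∈ T', g.out = g'.out → g = g' := by
    intro g₁ hg₁ g₂ hg₂ ho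
    rw [hT', mem_aux] at hg₁ hg₂
    obtain ⟨h₁, hh₁, _, rfl⟩ := hg₁
    obtain ⟨h₂, hh₂, _, rfl⟩ := hg₂
    rw [rnd_out, rnd_out] at ho
    rw [hout h₁ hh₁ h₂ hh₂ ho]
  obtain ⟨hval, hsat⟩ := QuarterRegime.result V T' hpar' hout' (1 / 4) (le_refl _)
  set y : V → ℝ := sol T' with hy
  set x : V → ℝ := logicSol T ε with hx
  have hnε : ¬ (1 / 4 ≤ ε) := not_le.mpr hε4
  have hxc : ∀ α z, Gate.const α z ∈ T → x z = α := by
    intro α z hgT
    have hex : ∃ β, Gate.const β z ∈ T := ⟨α, hgT⟩
    have hch : Gate.const hex.choose z = Gate.const α z :=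
      hout _ hex.choose_spec _ hgT rfl
    simp only [hx, logicSol, if_neg hnε, dif_pos hex]
    injection hch
  have hxn : ∀ v, (¬ ∃ α, Gate.const α v ∈ T) → x v = 2 * y v - 1 / 2 := by
    intro v hv
    simp only [hx, logicSol, if_neg hnε, dif_neg hv]
    rfl
  -- from `x` to `y`, at every node
  have L1 : ∀ v, (x v ≤ ε → y v ≤ 1 / 4) ∧ (1 - ε ≤ x v → 3 / 4 ≤ y v) := by
    intro v
    by_cases hv : ∃ α, Gate.const α v ∈ T
    · obtain ⟨α, hα⟩ := hv
      rw [hxc α v hα]
      constructor
      · intro h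
        have hk : Keep ε (Gate.const α v) := Or.inl h
        have h1 := hsat _ (hmem _ hα hk)
        have h2 : rnd ε (Gate.const α v) = Gate.const 0 v := by
          show (if α ≤ ε then Gate.const 0 v else Gate.const 1 v) = Gate.const 0 v
          rw [if_pos h]
        rw [h2] at h1
        have h3 : |y v - 0| ≤ 1 / 4 := h1
        rw [sub_zero] at h3
        exact (abs_le.mp h3).2
      · intro h
        have hk : Keep ε (Gate.const α v) := Or.inr h
        have h1 := hsat _ (hmem _ hα hk)
        have h2 : rnd ε (Gate.const α v) = Gate.const 1 v := by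
          show (if α ≤ ε then Gate.const 0 v else Gate.const 1 v) = Gate.const 1 v
          rw [if_neg (by linarith)]
        rw [h2] at h1
        have h3 : |y v - 1| ≤ 1 / 4 := h1
        have := (abs_le.mp h3).1
        linarith
    · rw [hxn v hv]
      rcases hval v with h | h | h <;> rw [h] <;> constructor <;> intro h' <;> linarith
  -- from `y` to `x`, at nodes that are not outputs of Constant gates
  have L2 : ∀ v, (¬ ∃ α, Gate.const α v ∈ T) →
      (3 / 4 ≤ y v → 1 - ε ≤ x v) ∧ (y v ≤ 1 / 4 → x v ≤ ε) := by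
    intro v hv
    rw [hxn v hv]
    constructor <;> intro h <;> linarith
  have hnc : ∀ g ∈ T, (¬ ∃ α z, g = Gate.const α z) → ¬ ∃ α, Gate.const α g.out ∈ T := by
    rintro g hg hne ⟨α, hα⟩
    exact hne ⟨α, g.out, hout g hg _ hα rfl⟩
  refine ⟨?_, ?_⟩
  · intro v
    by_cases hv : ∃ α, Gate.const α v ∈ T
    · obtain ⟨α, hα⟩ := hv
      rw [hxc α v hα]
      exact hpar _ hα
    · rw [hxn v hv]
      rcases hval v with h | h | h <;> rw [h] <;> constructor <;> norm_num
  · intro g hg hlog
    cases g with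
    | const α z =>
      show |x z - α| ≤ ε
      rw [hxc α z hg, sub_self, abs_zero]
      exact hε0
    | scale α a z => exact absurd hlog (by simp [IsLogic])
    | copy a z => exact absurd hlog (by simp [IsLogic])
    | add a b z => exact absurd hlog (by simp [IsLogic])
    | sub a b z => exact absurd hlog (by simp [IsLogic])
    | less a b z => exact absurd hlog (by simp [IsLogic])
    | neg a z =>
      have hz := L2 z (hnc _ hg (by rintro ⟨α, w, h⟩; cases h))
      have h1 : Sat (1 / 4) y (Gate.neg a z) := hsat _ (hmem _ hg trivial)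
      obtain ⟨h1a, h1b⟩ : (y a ≤ 1 / 4 → 1 - 1 / 4 ≤ y z) ∧ (1 - 1 / 4 ≤ y a → y z ≤ 1 / 4) := h1
      show (x a ≤ ε → 1 - ε ≤ x z) ∧ (1 - ε ≤ x a → x z ≤ ε)
      constructor
      · intro h
        exact hz.1 (by have := h1a ((L1 a).1 h); linarith)
      · intro h
        exact hz.2 (h1b (by have := (L1 a).2 h; linarith))
    | disj a b z =>
      have hz := L2 z (hnc _ hg (by rintro ⟨α, w, h⟩; cases h))
      have h1 : Sat (1 / 4) y (Gate.disj a b z) := hsat _ (hmem _ hg trivial)
      obtain ⟨h1a, h1b⟩ : ((1 - 1 / 4 ≤ y a ∨ 1 - 1 / 4 ≤ y b) → 1 - 1 / 4 ≤ y z) ∧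
          ((y a ≤ 1 / 4 ∧ y b ≤ 1 / 4) → y z ≤ 1 / 4) := h1
      show ((1 - ε ≤ x a ∨ 1 - ε ≤ x b) → 1 - ε ≤ x z) ∧ ((x a ≤ ε ∧ x b ≤ ε) → x z ≤ ε)
      constructor
      · intro h
        apply hz.1
        have : 1 - 1 / 4 ≤ y a ∨ 1 - 1 / 4 ≤ y b := by
          rcases h with h | h
          · left; have := (L1 a).2 h; linarith
          · right; have := (L1 b).2 h; linarith
        have := h1a this
        linarith
      · intro h
        exact hz.2 (h1b ⟨(L1 a).1 h.1, (L1 b).1 h.2⟩)
    | conj a b z =>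
      have hz := L2 z (hnc _ hg (by rintro ⟨α, w, h⟩; cases h))
      have h1 : Sat (1 / 4) y (Gate.conj a b z) := hsat _ (hmem _ hg trivial)
      obtain ⟨h1a, h1b⟩ : ((1 - 1 / 4 ≤ y a ∧ 1 - 1 / 4 ≤ y b) → 1 - 1 / 4 ≤ y z) ∧
          ((y a ≤ 1 / 4 ∨ y b ≤ 1 / 4) → y z ≤ 1 / 4) := h1
      show ((1 - ε ≤ x a ∧ 1 - ε ≤ x b) → 1 - ε ≤ x z) ∧ ((x a ≤ ε ∨ x b ≤ ε) → x z ≤ ε)
      constructor
      · intro h
        apply hz.1
        have : 1 - 1 / 4 ≤ y a ∧ 1 - 1 / 4 ≤ y b := by
          constructor
          · have := (L1 a).2 h.1; linarith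
          · have := (L1 b).2 h.2; linarith
        have := h1a this
        linarith
      · intro h
        apply hz.2
        apply h1b
        rcases h with h | h
        · left; exact (L1 a).1 h
        · right; exact (L1 b).1 h

/-- For every generalized circuit and every `ε ≥ 0`: (1) the assignment `logicSol T ε` has
values in `[0,1]`; (2) it `ε`-satisfies every Constant, Not, Or and And gate; (3) the all-zero
assignment `ε`-satisfies every gate that is neither Constant nor Not; (4) one of these two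
assignments `ε`-satisfies all gates of a set `S ⊆ T` with `|T| ≤ 2 |S|`. -/
theorem result (V : Type) [Fintype V] (T : Finset (Gate V))
    (hpar : ∀ g ∈ T, g.Valid)
    (hout : ∀ g ∈ T, ∀ g' ∈ T, g.out = g'.out → g = g')
    (ε : ℝ) (hε0 : 0 ≤ ε) :
    (∀ v, 0 ≤ logicSol T ε v ∧ logicSol T ε v ≤ 1) ∧
    (∀ g ∈ T, IsLogic g → Sat ε (logicSol T ε) g) ∧
    (∀ g ∈ T, ¬ IsConstOrNot g → Sat ε (fun _ : V => (0 : ℝ)) g) ∧
    (∃ S : Finset (Gate V), S ⊆ T ∧ T.card ≤ 2 * S.card ∧
      ((∀ g ∈ S, Sat ε (logicSol T ε) g) ∨ (∀ g ∈ S, Sat ε (fun _ : V => (0 : ℝ)) g))) := by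
  classical
  have h2 : ∀ g ∈ T, ¬ IsConstOrNot g → Sat ε (fun _ : V => (0 : ℝ)) g :=
    fun g _ hg => zero_sat ε hε0 g hg
  by_cases hε4 : 1 / 4 ≤ ε
  · -- every gate is satisfied by the assignment of `QuarterRegime`
    obtain ⟨hval, hsat⟩ := QuarterRegime.result V T hpar hout ε hε4
    have hls : logicSol T ε = sol T := by
      funext v
      simp only [logicSol, if_pos hε4]
    rw [hls]
    have hb : ∀ v, 0 ≤ sol T v ∧ sol T v ≤ 1 := by
      intro v
      rcases hval v with h | h | h <;> rw [h] <;> constructor <;> norm_num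
    refine ⟨hb, fun g hg _ => hsat g hg, h2, T, Finset.Subset.refl _, ?_, Or.inl hsat⟩
    omega
  · rw [not_le] at hε4
    obtain ⟨hx01, hxsat⟩ := logic_sat V T hpar hout ε hε0 hε4
    refine ⟨hx01, hxsat, h2, ?_⟩
    set A : Finset (Gate V) := T.filter IsConstOrNot with hA
    set B : Finset (Gate V) := T.filter (fun g => ¬ IsConstOrNot g) with hB
    have hcard : T.card = A.card + B.card := by
      rw [hA, hB, Finset.card_filter_add_card_filter_not]
    have hAsat : ∀ g ∈ A, Sat ε (logicSol T ε) g := by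
      intro g hg
      rw [hA, Finset.mem_filter] at hg
      apply hxsat g hg.1
      cases g with
      | const α z => trivial
      | neg a z => trivial
      | scale α a z => exact absurd hg.2 (by simp [IsConstOrNot])
      | copy a z => exact absurd hg.2 (by simp [IsConstOrNot])
      | add a b z => exact absurd hg.2 (by simp [IsConstOrNot])
      | sub a b z => exact absurd hg.2 (by simp [IsConstOrNot])
      | less a b z => exact absurd hg.2 (by simp [IsConstOrNot])
      | disj a b z => exact absurd hg.2 (by simp [IsConstOrNot])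
      | conj a b z => exact absurd hg.2 (by simp [IsConstOrNot])
    have hBsat : ∀ g ∈ B, Sat ε (fun _ : V => (0 : ℝ)) g := by
      intro g hg
      rw [hB, Finset.mem_filter] at hg
      exact h2 g hg.1 hg.2
    by_cases hAB : B.card ≤ A.card
    · exact ⟨A, Finset.filter_subset _ _, by omega, Or.inl hAsat⟩
    · exact ⟨B, Finset.filter_subset _ _, by omega, Or.inr hBsat⟩

end Vale.Agent.Results.P330.HalfOfGates
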