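import Mathlib

/-!
# P330 (PCP for PPAD): a six-gate PURIFY gadget for generalized circuits, valid for `ε < 1/7`

Seven nodes `u, o, b, c, d, y₁, y₂` of a generalized circuit and six gates of the problem's
types (inputs first, output node last):

* Constant(1) with output `o`;
* Subtract with inputs `o, u` and output `b`   (`b ≈ 1 - u`);
* Subtract with inputs `b, u` and output `c`   (`c ≈ 1 - 2u`);
* Subtract with inputs `u, b` and output `d`   (`d ≈ 2u - 1`);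
* Less with inputs `c, u` and output `y₁`      (high if `c < u`, i.e. `u > 1/3`);
* Less with inputs `b, d` and output `y₂`      (high if `b < d`, i.e. `u > 2/3`).

`Gadget ε u o b c d y₁ y₂` says that the seven real values of these nodes lie in `[0,1]` and
`ε`-satisfy the six gates (the conditions of the problem statement, written out).  Then:

1. for `0 < ε < 1/7`: if the input `u` is at most `ε`, both outputs are at most `ε`; if the
   input is at least `1 - ε`, both outputs are at least `1 - ε`; and in every case at least one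
   of the two outputs is at most `ε` or at least `1 - ε`;
2. for every `ε ≥ 0` and every input value in `[0,1]` the six gates can be `ε`-satisfied;
3. for `1/7 ≤ ε ≤ 1/5` the first property of 1. fails for this gadget.

The two comparisons use the same node `b`, so their undecided zones (near `1/3` and `2/3`) move
together and never meet.
-/

namespace Vale.Agent.Results.P330.PurifyGadget

/-- The seven values lie in `[0,1]` and `ε`-satisfy the six gates Constant(1) → `o`,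
Subtract(`o`,`u`) → `b`, Subtract(`b`,`u`) → `c`, Subtract(`u`,`b`) → `d`,
Less(`c`,`u`) → `y₁`, Less(`b`,`d`) → `y₂`. -/
def Gadget (ε u o b c d y₁ y₂ : ℝ) : Prop :=
  (0 ≤ u ∧ u ≤ 1) ∧ (0 ≤ o ∧ o ≤ 1) ∧ (0 ≤ b ∧ b ≤ 1) ∧ (0 ≤ c ∧ c ≤ 1) ∧ (0 ≤ d ∧ d ≤ 1) ∧
  (0 ≤ y₁ ∧ y₁ ≤ 1) ∧ (0 ≤ y₂ ∧ y₂ ≤ 1) ∧
  |o - 1| ≤ ε ∧
  |b - max (o - u) 0| ≤ ε ∧
  |c - max (b - u) 0| ≤ ε ∧
  |d - max (u - b) 0| ≤ ε ∧
  ((c < u - ε → 1 - ε ≤ y₁) ∧ (u + ε < c → y₁ ≤ ε)) ∧
  ((b < d - ε → 1 - ε ≤ y₂) ∧ (d + ε < b → y₂ ≤ ε))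

/-- The gadget property; of the range `[0,1]` only `o ≤ 1` is used. -/
theorem purify (ε u o b c d y₁ y₂ : ℝ) (h0 : 0 < ε) (h7 : ε < 1 / 7) (ho : o ≤ 1)
    (hO : |o - 1| ≤ ε)
    (hB : |b - max (o - u) 0| ≤ ε)
    (hC : |c - max (b - u) 0| ≤ ε)
    (hD : |d - max (u - b) 0| ≤ ε)
    (hY1 : (c < u - ε → 1 - ε ≤ y₁) ∧ (u + ε < c → y₁ ≤ ε))
    (hY2 : (b < d - ε → 1 - ε ≤ y₂) ∧ (d + ε < b → y₂ ≤ ε)) :
    (u ≤ ε → y₁ ≤ ε ∧ y₂ ≤ ε) ∧
    (1 - ε ≤ u → 1 - ε ≤ y₁ ∧ 1 - ε ≤ y₂) ∧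
    ((y₁ ≤ ε ∨ 1 - ε ≤ y₁) ∨ (y₂ ≤ ε ∨ 1 - ε ≤ y₂)) := by
  obtain ⟨hO1, hO2⟩ := abs_le.mp hO
  obtain ⟨hB1, hB2⟩ := abs_le.mp hB
  obtain ⟨hC1, hC2⟩ := abs_le.mp hC
  obtain ⟨hD1, hD2⟩ := abs_le.mp hD
  obtain ⟨hY1a, hY1b⟩ := hY1
  obtain ⟨hY2a, hY2b⟩ := hY2
  have mB1 := le_max_left (o - u) 0
  have mB2 := le_max_right (o - u) 0
  have mC1 := le_max_left (b - u) 0
  have mC2 := le_max_right (b - u) 0
  have mD1 := le_max_left (u - b) 0
  have mD2 := le_max_right (u - b) 0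
  refine ⟨?_, ?_, ?_⟩
  · -- low input
    intro hu
    refine ⟨hY1b ?_, hY2b ?_⟩
    · linarith
    · rcases le_total (u - b) 0 with h | h
      · rw [max_eq_right h] at hD2
        linarith
      · linarith
  · -- high input
    intro hu
    rcases le_total (o - u) 0 with h | h
    · rw [max_eq_right h] at hB2
      refine ⟨hY1a ?_, hY2a ?_⟩
      · rcases le_total (b - u) 0 with h' | h'
        · rw [max_eq_right h'] at hC2
          linarith
        · linarith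
      · linarith
    · rw [max_eq_left h] at hB2
      refine ⟨hY1a ?_, hY2a ?_⟩
      · rcases le_total (b - u) 0 with h' | h'
        · rw [max_eq_right h'] at hC2
          linarith
        · linarith
      · linarith
  · -- one of the outputs is pure
    by_contra hne
    rw [not_or, not_or, not_or] at hne
    obtain ⟨⟨n1, n2⟩, ⟨n3, n4⟩⟩ := hne
    have n1' := not_le.mp n1
    have n2' := not_le.mp n2
    have n3' := not_le.mp n3
    have n4' := not_le.mp n4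
    have k1 : u - ε ≤ c := by
      by_contra hk
      linarith [hY1a (not_le.mp hk)]
    have k2 : c ≤ u + ε := by
      by_contra hk
      linarith [hY1b (not_le.mp hk)]
    have k3 : d - ε ≤ b := by
      by_contra hk
      linarith [hY2a (not_le.mp hk)]
    have k4 : b ≤ d + ε := by
      by_contra hk
      linarith [hY2b (not_le.mp hk)]
    rcases le_total (b - u) 0 with h | h
    · rw [max_eq_right h] at hC2
      rcases le_total (u - b) 0 with h' | h'
      · rw [max_eq_right h'] at hD2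
        linarith
      · rw [max_eq_left h'] at hD2
        linarith
    · rw [max_eq_left h] at hC2
      rcases le_total (u - b) 0 with h' | h'
      · rw [max_eq_right h'] at hD2
        linarith
      · rw [max_eq_left h'] at hD2
        linarith

/-- A value that satisfies a Less gate with inputs of values `p`, `q`. -/
theorem less_out (ε p q : ℝ) (h0 : 0 ≤ ε) :
    ∃ y : ℝ, (0 ≤ y ∧ y ≤ 1) ∧ (p < q - ε → 1 - ε ≤ y) ∧ (q + ε < p → y ≤ ε) := by
  by_cases h : p < q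
  · exact ⟨1, ⟨zero_le_one, le_refl _⟩, fun _ => by linarith, fun h' => by linarith⟩
  · exact ⟨0, ⟨le_refl _, zero_le_one⟩, fun h' => by linarith, fun _ => h0⟩

/-- Every input value extends to values that satisfy the six gates (exact evaluation). -/
theorem consistent (ε u : ℝ) (h0 : 0 ≤ ε) (hu0 : 0 ≤ u) (hu1 : u ≤ 1) :
    ∃ o b c d y₁ y₂ : ℝ, Gadget ε u o b c d y₁ y₂ := by
  obtain ⟨y₁, hy1, hy1'⟩ := less_out ε (max (1 - u - u) 0) u h0
  obtain ⟨y₂, hy2, hy2'⟩ := less_out ε (1 - u) (max (u - (1 - u)) 0) h0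
  refine ⟨1, 1 - u, max (1 - u - u) 0, max (u - (1 - u)) 0, y₁, y₂,
    ⟨hu0, hu1⟩, ⟨zero_le_one, le_refl _⟩, ⟨by linarith, by linarith⟩, ⟨le_max_right _ _, ?_⟩,
    ⟨le_max_right _ _, ?_⟩, hy1, hy2, ?_, ?_, ?_, ?_, hy1', hy2'⟩
  · exact max_le (by linarith) zero_le_one
  · exact max_le (by linarith) zero_le_one
  · rw [sub_self, abs_zero]; exact h0
  · rw [max_eq_left (by linarith : (0 : ℝ) ≤ 1 - u), sub_self, abs_zero]; exact h0
  · rw [sub_self, abs_zero]; exact h0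
  · rw [sub_self, abs_zero]; exact h0

/-- For `1/7 ≤ ε ≤ 1/5` a low input does not force the first output to be low. -/
theorem fails (ε : ℝ) (h7 : 1 / 7 ≤ ε) (h5 : ε ≤ 1 / 5) :
    ∃ u o b c d y₁ y₂ : ℝ, Gadget ε u o b c d y₁ y₂ ∧ u ≤ ε ∧ ε < y₁ := by
  refine ⟨ε, 1 - ε, 1 - 3 * ε, 1 - 5 * ε, 0, 1 / 2, 0,
    ⟨⟨by linarith, by linarith⟩, ⟨by linarith, by linarith⟩, ⟨by linarith, by linarith⟩,
      ⟨by linarith, by linarith⟩, ⟨le_refl _, zero_le_one⟩, ⟨by norm_num, by norm_num⟩,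
      ⟨le_refl _, zero_le_one⟩, ?_, ?_, ?_, ?_, ⟨?_, ?_⟩, ⟨?_, ?_⟩⟩, le_refl _, by linarith⟩
  · rw [abs_le]; constructor <;> linarith
  · rw [max_eq_left (by linarith : (0 : ℝ) ≤ 1 - ε - ε), abs_le]; constructor <;> linarith
  · rw [max_eq_left (by linarith : (0 : ℝ) ≤ 1 - 3 * ε - ε), abs_le]; constructor <;> linarith
  · rw [max_eq_right (by linarith : ε - (1 - 3 * ε) ≤ 0), sub_self, abs_zero]; linarith
  · intro h; linarith
  · intro h; linarith
  · intro h; linarith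
  · intro _; linarith

/-- For the values `u, o, b, c, d, y₁, y₂` of seven nodes that lie in `[0,1]` and `ε`-satisfy
the six gates of the gadget (`Gadget`): (1) if `0 < ε < 1/7`, a low input (`u ≤ ε`) forces both
outputs low, a high input (`u ≥ 1 - ε`) forces both outputs high, and always at least one of
the outputs `y₁`, `y₂` is low or high; (2) for every `ε ≥ 0` every input value in `[0,1]`
extends to values satisfying the six gates; (3) for `1/7 ≤ ε ≤ 1/5` there are such values with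
a low input and `y₁ > ε`. -/
theorem result :
    (∀ ε u o b c d y₁ y₂ : ℝ, 0 < ε → ε < 1 / 7 → Gadget ε u o b c d y₁ y₂ →
      (u ≤ ε → y₁ ≤ ε ∧ y₂ ≤ ε) ∧
      (1 - ε ≤ u → 1 - ε ≤ y₁ ∧ 1 - ε ≤ y₂) ∧
      ((y₁ ≤ ε ∨ 1 - ε ≤ y₁) ∨ (y₂ ≤ ε ∨ 1 - ε ≤ y₂))) ∧
    (∀ ε u : ℝ, 0 ≤ ε → 0 ≤ u → u ≤ 1 → ∃ o b c d y₁ y₂ : ℝ, Gadget ε u o b c d y₁ y₂) ∧
    (∀ ε : ℝ, 1 / 7 ≤ ε → ε ≤ 1 / 5 →
      ∃ u o b c d y₁ y₂ : ℝ, Gadget ε u o b c d y₁ y₂ ∧ u ≤ ε ∧ ε < y₁) := by
  refine ⟨?_, consistent, fails⟩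
  intro ε u o b c d y₁ y₂ h0 h7 hG
  obtain ⟨_, ⟨_, ho⟩, _, _, _, _, _, hO, hB, hC, hD, hY1, hY2⟩ := hG
  exact purify ε u o b c d y₁ y₂ h0 h7 ho hO hB hC hD hY1 hY2

end Vale.Agent.Results.P330.PurifyGadget
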