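import Mathlib
import Vale.Agent.Results.P330.PurifyGadget

/-!
# P330 (PCP for PPAD): from a three-valued circuit with PURIFY gates to generalized circuits,
for every `ε < 1/7`

A *pure circuit* has nodes with values in `{0, 1, undetermined}` (`Option Bool`) and gates Not,
Or, And, Purify with the conditions of `PSat`.  Its translation replaces every Not, Or, And
gate by the generalized-circuit gate of the same name and every Purify gate by the six gates of
`PurifyGadget` (with four fresh nodes).  The theorem says: for `0 < ε < 1/7`, every assignment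
with values in `[0,1]` that `ε`-satisfies all gates of the translation decodes (value `≤ ε`
is `0`, value `≥ 1 - ε` is `1`, everything else undetermined) to an assignment that satisfies
every gate of the pure circuit.
-/

namespace Vale.Agent.Results.P330.PureCircuitReduction

open Vale.Agent.Results.P330.PurifyGadget

/-- A gate of a generalized circuit on the node set `V` (the problem's nine types); the last
node is the output node, the earlier nodes are the input nodes, `α` is the gate parameter. -/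
inductive Gate (V : Type) : Type
  | const (α : ℝ) (z : V)
  | scale (α : ℝ) (a z : V)
  | copy (a z : V)
  | add (a b z : V)
  | sub (a b z : V)
  | less (a b z : V)
  | neg (a z : V)
  | disj (a b z : V)
  | conj (a b z : V)

/-- `Sat ε x g`: the assignment `x` `ε`-satisfies the gate `g` (Constant, Scale, Copy, Add,
Subtract, Less, Not, Or, And, in this order). -/
def Sat {V : Type} (ε : ℝ) (x : V → ℝ) : Gate V → Prop
  | .const α z => |x z - α| ≤ ε
  | .scale α a z => |x z - α * x a| ≤ ε
  | .copy a z => |x z - x a| ≤ ε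
  | .add a b z => |x z - min (x a + x b) 1| ≤ ε
  | .sub a b z => |x z - max (x a - x b) 0| ≤ ε
  | .less a b z => (x a < x b - ε → 1 - ε ≤ x z) ∧ (x b + ε < x a → x z ≤ ε)
  | .neg a z => (x a ≤ ε → 1 - ε ≤ x z) ∧ (1 - ε ≤ x a → x z ≤ ε)
  | .disj a b z => ((1 - ε ≤ x a ∨ 1 - ε ≤ x b) → 1 - ε ≤ x z) ∧ ((x a ≤ ε ∧ x b ≤ ε) → x z ≤ ε)
  | .conj a b z => ((1 - ε ≤ x a ∧ 1 - ε ≤ x b) → 1 - ε ≤ x z) ∧ ((x a ≤ ε ∨ x b ≤ ε) → x z ≤ ε)

/-- A gate of a pure circuit on the node set `N`: Not, Or, And (output node last) and Purify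
(input node first, then the two output nodes). -/
inductive PGate (N : Type) : Type
  | neg (a z : N)
  | disj (a b z : N)
  | conj (a b z : N)
  | purify (a z₁ z₂ : N)

/-- `PSat x g`: the three-valued assignment `x` (`some false` is `0`, `some true` is `1`,
`none` is undetermined) satisfies the pure-circuit gate `g`. -/
def PSat {N : Type} (x : N → Option Bool) : PGate N → Prop
  | .neg a z => (x a = some false → x z = some true) ∧ (x a = some true → x z = some false)
  | .disj a b z => ((x a = some true ∨ x b = some true) → x z = some true) ∧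
      ((x a = some false ∧ x b = some false) → x z = some false)
  | .conj a b z => ((x a = some true ∧ x b = some true) → x z = some true) ∧
      ((x a = some false ∨ x b = some false) → x z = some false)
  | .purify a z₁ z₂ => (∀ v : Bool, x a = some v → x z₁ = some v ∧ x z₂ = some v) ∧
      (x z₁ ≠ none ∨ x z₂ ≠ none)

/-- The generalized-circuit gates that replace the pure-circuit gate with index `i`: the gate
of the same name for Not, Or, And; for Purify the six gates Constant(1) → `o`,
Subtract(`o`,`a`) → `b`, Subtract(`b`,`a`) → `c`, Subtract(`a`,`b`) → `d`, Less(`c`,`a`) → `z₁`,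
Less(`b`,`d`) → `z₂`, where `o, b, c, d` are the four fresh nodes of the gate with index `i`
(second components 0, 1, 2, 3). -/
def trans {N I : Type} (i : I) : PGate N → List (Gate (N ⊕ I × Fin 4))
  | .neg a z => [Gate.neg (Sum.inl a) (Sum.inl z)]
  | .disj a b z => [Gate.disj (Sum.inl a) (Sum.inl b) (Sum.inl z)]
  | .conj a b z => [Gate.conj (Sum.inl a) (Sum.inl b) (Sum.inl z)]
  | .purify a z₁ z₂ =>
      [Gate.const 1 (Sum.inr (i, 0)),
       Gate.sub (Sum.inr (i, 0)) (Sum.inl a) (Sum.inr (i, 1)),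
       Gate.sub (Sum.inr (i, 1)) (Sum.inl a) (Sum.inr (i, 2)),
       Gate.sub (Sum.inl a) (Sum.inr (i, 1)) (Sum.inr (i, 3)),
       Gate.less (Sum.inr (i, 2)) (Sum.inl a) (Sum.inl z₁),
       Gate.less (Sum.inr (i, 1)) (Sum.inr (i, 3)) (Sum.inl z₂)]

open Classical in
/-- Decoding: a value `≤ ε` is `0`, a value `≥ 1 - ε` is `1`, every other value is
undetermined. -/
noncomputable def dec {N I : Type} (ε : ℝ) (x : N ⊕ I × Fin 4 → ℝ) (n : N) : Option Bool :=
  if x (Sum.inl n) ≤ ε then some false else if 1 - ε ≤ x (Sum.inl n) then some true else none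

theorem dec_false {N I : Type} (ε : ℝ) (x : N ⊕ I × Fin 4 → ℝ) (n : N) :
    dec ε x n = some false ↔ x (Sum.inl n) ≤ ε := by
  unfold dec
  constructor
  · intro h
    by_contra hn
    rw [if_neg hn] at h
    by_cases h' : 1 - ε ≤ x (Sum.inl n)
    · rw [if_pos h'] at h
      cases h
    · rw [if_neg h'] at h
      cases h
  · intro h
    rw [if_pos h]

theorem dec_true {N I : Type} (ε : ℝ) (x : N ⊕ I × Fin 4 → ℝ) (n : N) (hε : ε < 1 / 2) :
    dec ε x n = some true ↔ 1 - ε ≤ x (Sum.inl n) := by
  unfold dec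
  constructor
  · intro h
    by_contra hn
    by_cases h' : x (Sum.inl n) ≤ ε
    · rw [if_pos h'] at h
      cases h
    · rw [if_neg h', if_neg hn] at h
      cases h
  · intro h
    rw [if_neg (by linarith), if_pos h]

theorem dec_ne_none {N I : Type} (ε : ℝ) (x : N ⊕ I × Fin 4 → ℝ) (n : N)
    (h : x (Sum.inl n) ≤ ε ∨ 1 - ε ≤ x (Sum.inl n)) : dec ε x n ≠ none := by
  unfold dec
  rcases h with h | h
  · rw [if_pos h]; exact Option.some_ne_none _
  · split_ifs <;> exact Option.some_ne_none _

/-- For every family `P` of pure-circuit gates (indexed by `I`, on the node set `N`) and every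
`0 < ε < 1/7`: if `x` has values in `[0,1]` and `ε`-satisfies every generalized-circuit gate
of the translation (`trans i (P i)` for all `i`), then the decoded assignment `dec ε x`
satisfies every gate `P i`. -/
theorem result (N I : Type) (P : I → PGate N) (ε : ℝ) (h0 : 0 < ε) (h7 : ε < 1 / 7)
    (x : N ⊕ I × Fin 4 → ℝ) (hx : ∀ v, 0 ≤ x v ∧ x v ≤ 1)
    (hsat : ∀ i, ∀ g ∈ trans i (P i), Sat ε x g) :
    ∀ i, PSat (dec ε x) (P i) := by
  have h2 : ε < 1 / 2 := by linarith
  intro i
  have hi := hsat i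
  cases hP : P i with
  | neg a z =>
    rw [hP] at hi
    have h1 : Sat ε x (Gate.neg (Sum.inl a) (Sum.inl z)) := hi _ (by simp [trans])
    obtain ⟨h1a, h1b⟩ : (x (Sum.inl a) ≤ ε → 1 - ε ≤ x (Sum.inl z)) ∧
        (1 - ε ≤ x (Sum.inl a) → x (Sum.inl z) ≤ ε) := h1
    show (dec ε x a = some false → dec ε x z = some true) ∧
      (dec ε x a = some true → dec ε x z = some false)
    rw [dec_false ε x a, dec_true ε x a h2, dec_false ε x z, dec_true ε x z h2]
    exact ⟨h1a, h1b⟩
  | disj a b z =>
    rw [hP] at hi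
    have h1 : Sat ε x (Gate.disj (Sum.inl a) (Sum.inl b) (Sum.inl z)) := hi _ (by simp [trans])
    obtain ⟨h1a, h1b⟩ : ((1 - ε ≤ x (Sum.inl a) ∨ 1 - ε ≤ x (Sum.inl b)) → 1 - ε ≤ x (Sum.inl z)) ∧
        ((x (Sum.inl a) ≤ ε ∧ x (Sum.inl b) ≤ ε) → x (Sum.inl z) ≤ ε) := h1
    show ((dec ε x a = some true ∨ dec ε x b = some true) → dec ε x z = some true) ∧
      ((dec ε x a = some false ∧ dec ε x b = some false) → dec ε x z = some false)
    rw [dec_false ε x a, dec_true ε x a h2, dec_false ε x b, dec_true ε x b h2,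
      dec_false ε x z, dec_true ε x z h2]
    exact ⟨h1a, h1b⟩
  | conj a b z =>
    rw [hP] at hi
    have h1 : Sat ε x (Gate.conj (Sum.inl a) (Sum.inl b) (Sum.inl z)) := hi _ (by simp [trans])
    obtain ⟨h1a, h1b⟩ : ((1 - ε ≤ x (Sum.inl a) ∧ 1 - ε ≤ x (Sum.inl b)) → 1 - ε ≤ x (Sum.inl z)) ∧
        ((x (Sum.inl a) ≤ ε ∨ x (Sum.inl b) ≤ ε) → x (Sum.inl z) ≤ ε) := h1
    show ((dec ε x a = some true ∧ dec ε x b = some true) → dec ε x z = some true) ∧
      ((dec ε x a = some false ∨ dec ε x b = some false) → dec ε x z = some false)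
    rw [dec_false ε x a, dec_true ε x a h2, dec_false ε x b, dec_true ε x b h2,
      dec_false ε x z, dec_true ε x z h2]
    exact ⟨h1a, h1b⟩
  | purify a z₁ z₂ =>
    rw [hP] at hi
    have g1 : Sat ε x (Gate.const 1 (Sum.inr (i, 0))) := hi _ (by simp [trans])
    have g2 : Sat ε x (Gate.sub (Sum.inr (i, 0)) (Sum.inl a) (Sum.inr (i, 1))) :=
      hi _ (by simp [trans])
    have g3 : Sat ε x (Gate.sub (Sum.inr (i, 1)) (Sum.inl a) (Sum.inr (i, 2))) :=
      hi _ (by simp [trans])
    have g4 : Sat ε x (Gate.sub (Sum.inl a) (Sum.inr (i, 1)) (Sum.inr (i, 3))) :=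
      hi _ (by simp [trans])
    have g5 : Sat ε x (Gate.less (Sum.inr (i, 2)) (Sum.inl a) (Sum.inl z₁)) :=
      hi _ (by simp [trans])
    have g6 : Sat ε x (Gate.less (Sum.inr (i, 1)) (Sum.inr (i, 3)) (Sum.inl z₂)) :=
      hi _ (by simp [trans])
    obtain ⟨p1, p2, p3⟩ := purify ε (x (Sum.inl a)) (x (Sum.inr (i, 0))) (x (Sum.inr (i, 1)))
      (x (Sum.inr (i, 2))) (x (Sum.inr (i, 3))) (x (Sum.inl z₁)) (x (Sum.inl z₂)) h0 h7
      (hx _).2 g1 g2 g3 g4 g5 g6
    show (∀ v : Bool, dec ε x a = some v → dec ε x z₁ = some v ∧ dec ε x z₂ = some v) ∧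
      (dec ε x z₁ ≠ none ∨ dec ε x z₂ ≠ none)
    refine ⟨?_, ?_⟩
    · intro v hv
      cases v with
      | false =>
        rw [dec_false ε x a] at hv
        rw [dec_false ε x z₁, dec_false ε x z₂]
        exact p1 hv
      | true =>
        rw [dec_true ε x a h2] at hv
        rw [dec_true ε x z₁ h2, dec_true ε x z₂ h2]
        exact p2 hv
    · rcases p3 with h | h
      · exact Or.inl (dec_ne_none ε x z₁ h)
      · exact Or.inr (dec_ne_none ε x z₂ h)

end Vale.Agent.Results.P330.PureCircuitReduction
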