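import Mathlib
import Vale.Agent.Results.P330.PureCircuitReduction

/-!
# P330 (PCP for PPAD): the translation of pure circuits is sound gate by gate, hence for a
fraction of violated gates, for every `ε < 1/7`

Setting of `PureCircuitReduction` (its definitions `Gate`, `Sat`, `PGate`, `PSat`, `trans`, `dec`
are used unchanged): a pure circuit is a family `P : I → PGate N` of Not, Or, And, Purify gates
on three-valued nodes; `trans i (P i)` is the list of generalized-circuit gates that replaces the
gate `P i` (one gate, or the six gates of the Purify gadget with four fresh nodes); `dec ε x`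
decodes a real assignment (`≤ ε` is `0`, `≥ 1 - ε` is `1`, everything else undetermined).

For `0 < ε < 1/7` and every assignment `x` with values in `[0,1]`:

1. (local soundness) for every `i`: if `x` `ε`-satisfies the gates of `trans i (P i)`, then
   `dec ε x` satisfies `P i` - whatever happens at the other gates;
2. (counting) the number of gates `P i` that `dec ε x` does not satisfy is at most the number
   of gates of the translation (counted in the lists `trans i (P i)`, summed over `i`) that `x`
   does not `ε`-satisfy;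
3. every list `trans i (P i)` has at most six gates.

So an assignment that `ε`-satisfies all but a fraction `δ` of the at most `6 |I|` gates of the
translation decodes to an assignment that satisfies all but `6 δ |I|` gates of the pure circuit.
-/

namespace Vale.Agent.Results.P330.PureCircuitGap

open Vale.Agent.Results.P330.PurifyGadget
open Vale.Agent.Results.P330.PureCircuitReduction

/-- Local soundness: the gate `P i` is satisfied by the decoded assignment as soon as the gates
of its own translation are `ε`-satisfied. -/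
theorem local_sound (N I : Type) (P : I → PGate N) (ε : ℝ) (h0 : 0 < ε) (h7 : ε < 1 / 7)
    (x : N ⊕ I × Fin 4 → ℝ) (hx : ∀ v, 0 ≤ x v ∧ x v ≤ 1) (i : I)
    (hi : ∀ g ∈ trans i (P i), Sat ε x g) : PSat (dec ε x) (P i) := by
  have h2 : ε < 1 / 2 := by linarith
  cases hP : P i with
  | neg a z =>
    rw [hP] at hi
    have h1 : Sat ε x (Gate.neg (Sum.inl a) (Sum.inl z)) := hi _ (by simp [PureCircuitReduction.trans])
    obtain ⟨h1a, h1b⟩ : (x (Sum.inl a) ≤ ε → 1 - ε ≤ x (Sum.inl z)) ∧
        (1 - ε ≤ x (Sum.inl a) → x (Sum.inl z) ≤ ε) := h1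
    show (dec ε x a = some false → dec ε x z = some true) ∧
      (dec ε x a = some true → dec ε x z = some false)
    rw [dec_false ε x a, dec_true ε x a h2, dec_false ε x z, dec_true ε x z h2]
    exact ⟨h1a, h1b⟩
  | disj a b z =>
    rw [hP] at hi
    have h1 : Sat ε x (Gate.disj (Sum.inl a) (Sum.inl b) (Sum.inl z)) := hi _ (by simp [PureCircuitReduction.trans])
    obtain ⟨h1a, h1b⟩ : ((1 - ε ≤ x (Sum.inl a) ∨ 1 - ε ≤ x (Sum.inl b)) → 1 - ε ≤ x (Sum.inl z)) ∧
        ((x (Sum.inl a) ≤ ε ∧ x (Sum.inl b) ≤ ε) → x (Sum.inl z) ≤ ε) := h1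
    show ((dec ε x a = some true ∨ dec ε x b = some true) → dec ε x z = some true) ∧
      ((dec ε x a = some false ∧ dec ε x b = some false) → dec ε x z = some false)
    rw [dec_false ε x a, dec_true ε x a h2, dec_false ε x b, dec_true ε x b h2,
      dec_false ε x z, dec_true ε x z h2]
    exact ⟨h1a, h1b⟩
  | conj a b z =>
    rw [hP] at hi
    have h1 : Sat ε x (Gate.conj (Sum.inl a) (Sum.inl b) (Sum.inl z)) := hi _ (by simp [PureCircuitReduction.trans])
    obtain ⟨h1a, h1b⟩ : ((1 - ε ≤ x (Sum.inl a) ∧ 1 - ε ≤ x (Sum.inl b)) → 1 - ε ≤ x (Sum.inl z)) ∧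
        ((x (Sum.inl a) ≤ ε ∨ x (Sum.inl b) ≤ ε) → x (Sum.inl z) ≤ ε) := h1
    show ((dec ε x a = some true ∧ dec ε x b = some true) → dec ε x z = some true) ∧
      ((dec ε x a = some false ∨ dec ε x b = some false) → dec ε x z = some false)
    rw [dec_false ε x a, dec_true ε x a h2, dec_false ε x b, dec_true ε x b h2,
      dec_false ε x z, dec_true ε x z h2]
    exact ⟨h1a, h1b⟩
  | purify a z₁ z₂ =>
    rw [hP] at hi
    have g1 : Sat ε x (Gate.const 1 (Sum.inr (i, 0))) := hi _ (by simp [PureCircuitReduction.trans])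
    have g2 : Sat ε x (Gate.sub (Sum.inr (i, 0)) (Sum.inl a) (Sum.inr (i, 1))) :=
      hi _ (by simp [PureCircuitReduction.trans])
    have g3 : Sat ε x (Gate.sub (Sum.inr (i, 1)) (Sum.inl a) (Sum.inr (i, 2))) :=
      hi _ (by simp [PureCircuitReduction.trans])
    have g4 : Sat ε x (Gate.sub (Sum.inl a) (Sum.inr (i, 1)) (Sum.inr (i, 3))) :=
      hi _ (by simp [PureCircuitReduction.trans])
    have g5 : Sat ε x (Gate.less (Sum.inr (i, 2)) (Sum.inl a) (Sum.inl z₁)) :=
      hi _ (by simp [PureCircuitReduction.trans])
    have g6 : Sat ε x (Gate.less (Sum.inr (i, 1)) (Sum.inr (i, 3)) (Sum.inl z₂)) :=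
      hi _ (by simp [PureCircuitReduction.trans])
    obtain ⟨p1, p2, p3⟩ := purify ε (x (Sum.inl a)) (x (Sum.inr (i, 0))) (x (Sum.inr (i, 1)))
      (x (Sum.inr (i, 2))) (x (Sum.inr (i, 3))) (x (Sum.inl z₁)) (x (Sum.inl z₂)) h0 h7
      (hx _).2 g1 g2 g3 g4 g5 g6
    show (∀ v : Bool, dec ε x a = some v → dec ε x z₁ = some v ∧ dec ε x z₂ = some v) ∧
      (dec ε x z₁ ≠ none ∨ dec ε x z₂ ≠ none)
    refine ⟨?_, ?_⟩
    · intro v hv
      cases v with
      | false =>
        rw [dec_false ε x a] at hv
        rw [dec_false ε x z₁, dec_false ε x z₂]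
        exact p1 hv
      | true =>
        rw [dec_true ε x a h2] at hv
        rw [dec_true ε x z₁ h2, dec_true ε x z₂ h2]
        exact p2 hv
    · rcases p3 with h | h
      · exact Or.inl (dec_ne_none ε x z₁ h)
      · exact Or.inr (dec_ne_none ε x z₂ h)

theorem trans_length_le {N I : Type} (i : I) (g : PGate N) : (trans i g).length ≤ 6 := by
  cases g <;> (simp only [PureCircuitReduction.trans, List.length_cons, List.length_nil]; omega)

open Classical in
/-- For every finite family `P` of pure-circuit gates, every `0 < ε < 1/7` and every assignment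
`x` with values in `[0,1]` on the nodes of the translation: (1) for every `i`, if `x`
`ε`-satisfies the gates of `trans i (P i)`, then `dec ε x` satisfies `P i`; (2) the number of
indices `i` such that `dec ε x` does not satisfy `P i` is at most the sum over `i` of the number
of gates in the list `trans i (P i)` that `x` does not `ε`-satisfy; (3) every list
`trans i (P i)` has at most six gates. -/
theorem result (N I : Type) [Fintype I] (P : I → PGate N) (ε : ℝ) (h0 : 0 < ε) (h7 : ε < 1 / 7)
    (x : N ⊕ I × Fin 4 → ℝ) (hx : ∀ v, 0 ≤ x v ∧ x v ≤ 1) :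
    (∀ i, (∀ g ∈ trans i (P i), Sat ε x g) → PSat (dec ε x) (P i)) ∧
    (Finset.univ.filter (fun i => ¬ PSat (dec ε x) (P i))).card ≤
      ∑ i, (trans i (P i)).countP (fun g => decide (¬ Sat ε x g)) ∧
    (∀ i, (trans i (P i)).length ≤ 6) := by
  refine ⟨fun i hi => local_sound N I P ε h0 h7 x hx i hi, ?_, fun i => trans_length_le i (P i)⟩
  rw [Finset.card_filter]
  apply Finset.sum_le_sum
  intro i _
  by_cases hbad : PSat (dec ε x) (P i)
  · rw [if_neg (not_not.mpr hbad)]
    exact Nat.zero_le _
  · rw [if_pos hbad]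
    have hex : ∃ g ∈ trans i (P i), ¬ Sat ε x g := by
      by_contra hno
      exact hbad (local_sound N I P ε h0 h7 x hx i
        (fun g hg => by
          by_contra hs
          exact hno ⟨g, hg, hs⟩))
    obtain ⟨g, hg, hgs⟩ := hex
    have hpos : 0 < (trans i (P i)).countP (fun g => decide (¬ Sat ε x g)) :=
      List.countP_pos_iff.mpr ⟨g, hg, by simpa using hgs⟩
    omega

end Vale.Agent.Results.P330.PureCircuitGap
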