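import Mathlib

/-!
# P330 (PCP for PPAD): the trivial parameter regime of approximate generalized circuits

Generalized circuits with the nine gate types of the problem statement and their
`ε`-satisfaction are modelled literally.  Two elementary facts are proved for every circuit:

* if `ε ≥ 1/2`, the constant assignment `1/2` `ε`-satisfies every gate;
* for every `0 ≤ ε < 1`, one of three explicit assignments (all nodes `0`; all nodes `1/2`;
  outputs of Constant gates set to their constants and all other nodes `0`) `ε`-satisfies at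
  least one third of the gates.
-/

namespace Vale.Agent.Results.P330.TrivialRegime

/-- A gate of a generalized circuit on the node set `V`; the last node is the output node,
the earlier nodes are the input nodes, and `α` is the gate parameter. -/
inductive Gate (V : Type) : Type
  | const (α : ℝ) (z : V)
  | scale (α : ℝ) (a z : V)
  | copy (a z : V)
  | add (a b z : V)
  | sub (a b z : V)
  | less (a b z : V)
  | neg (a z : V)
  | disj (a b z : V)
  | conj (a b z : V)

/-- The output node of a gate. -/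
def Gate.out {V : Type} : Gate V → V
  | .const _ z => z
  | .scale _ _ z => z
  | .copy _ z => z
  | .add _ _ z => z
  | .sub _ _ z => z
  | .less _ _ z => z
  | .neg _ z => z
  | .disj _ _ z => z
  | .conj _ _ z => z

/-- Gate parameters lie in `[0,1]`. -/
def Gate.Valid {V : Type} : Gate V → Prop
  | .const α _ => 0 ≤ α ∧ α ≤ 1
  | .scale α _ _ => 0 ≤ α ∧ α ≤ 1
  | _ => True

/-- `Sat ε x g`: the assignment `x` of values to the nodes `ε`-satisfies the gate `g`
(Constant, Scale, Copy, Add, Subtract, Less, Not, Or, And, in this order). -/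
def Sat {V : Type} (ε : ℝ) (x : V → ℝ) : Gate V → Prop
  | .const α z => |x z - α| ≤ ε
  | .scale α a z => |x z - α * x a| ≤ ε
  | .copy a z => |x z - x a| ≤ ε
  | .add a b z => |x z - min (x a + x b) 1| ≤ ε
  | .sub a b z => |x z - max (x a - x b) 0| ≤ ε
  | .less a b z => (x a < x b - ε → 1 - ε ≤ x z) ∧ (x b + ε < x a → x z ≤ ε)
  | .neg a z => (x a ≤ ε → 1 - ε ≤ x z) ∧ (1 - ε ≤ x a → x z ≤ ε)
  | .disj a b z => ((1 - ε ≤ x a ∨ 1 - ε ≤ x b) → 1 - ε ≤ x z) ∧ ((x a ≤ ε ∧ x b ≤ ε) → x z ≤ ε)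
  | .conj a b z => ((1 - ε ≤ x a ∧ 1 - ε ≤ x b) → 1 - ε ≤ x z) ∧ ((x a ≤ ε ∨ x b ≤ ε) → x z ≤ ε)

theorem result (V : Type) (T : Finset (Gate V))
    (hpar : ∀ g ∈ T, g.Valid)
    (hout : ∀ g ∈ T, ∀ g' ∈ T, g.out = g'.out → g = g')
    (ε : ℝ) :
    (1 / 2 ≤ ε → ∀ g ∈ T, Sat ε (fun _ : V => (1 / 2 : ℝ)) g) ∧
    (0 ≤ ε → ε < 1 → ∃ x : V → ℝ, (∀ v, 0 ≤ x v ∧ x v ≤ 1) ∧
      ∃ S : Finset (Gate V), S ⊆ T ∧ (∀ g ∈ S, Sat ε x g) ∧ T.card ≤ 3 * S.card) := by
  classical
  refine ⟨?_, ?_⟩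
  · intro hε g hg
    have hv := hpar g hg
    cases g with
    | const α z =>
      obtain ⟨h0, h1⟩ : 0 ≤ α ∧ α ≤ 1 := hv
      show |(1 / 2 : ℝ) - α| ≤ ε
      rw [abs_le]; constructor <;> linarith
    | scale α a z =>
      obtain ⟨h0, h1⟩ : 0 ≤ α ∧ α ≤ 1 := hv
      show |(1 / 2 : ℝ) - α * (1 / 2)| ≤ ε
      rw [abs_le]; constructor <;> nlinarith
    | copy a z =>
      show |(1 / 2 : ℝ) - 1 / 2| ≤ ε
      rw [sub_self, abs_zero]; linarith
    | add a b z =>
      show |(1 / 2 : ℝ) - min (1 / 2 + 1 / 2) 1| ≤ ε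
      norm_num
      exact hε
    | sub a b z =>
      show |(1 / 2 : ℝ) - max (1 / 2 - 1 / 2) 0| ≤ ε
      norm_num
      exact hε
    | less a b z =>
      show ((1 / 2 : ℝ) < 1 / 2 - ε → 1 - ε ≤ 1 / 2) ∧ ((1 / 2 : ℝ) + ε < 1 / 2 → (1 / 2 : ℝ) ≤ ε)
      exact ⟨fun _ => by linarith, fun _ => by linarith⟩
    | neg a z =>
      show ((1 / 2 : ℝ) ≤ ε → 1 - ε ≤ 1 / 2) ∧ (1 - ε ≤ (1 / 2 : ℝ) → (1 / 2 : ℝ) ≤ ε)
      exact ⟨fun _ => by linarith, fun _ => by linarith⟩
    | disj a b z =>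
      show ((1 - ε ≤ (1 / 2 : ℝ) ∨ 1 - ε ≤ (1 / 2 : ℝ)) → 1 - ε ≤ 1 / 2) ∧
        (((1 / 2 : ℝ) ≤ ε ∧ (1 / 2 : ℝ) ≤ ε) → (1 / 2 : ℝ) ≤ ε)
      exact ⟨fun _ => by linarith, fun _ => by linarith⟩
    | conj a b z =>
      show ((1 - ε ≤ (1 / 2 : ℝ) ∧ 1 - ε ≤ (1 / 2 : ℝ)) → 1 - ε ≤ 1 / 2) ∧
        (((1 / 2 : ℝ) ≤ ε ∨ (1 / 2 : ℝ) ≤ ε) → (1 / 2 : ℝ) ≤ ε)
      exact ⟨fun _ => by linarith, fun _ => by linarith⟩
  · intro hε0 hε1
    -- the three classes of gates
    set isC : Gate V → Prop := fun g => ∃ α z, g = Gate.const α z with hisC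
    set isN : Gate V → Prop := fun g => ∃ a z, g = Gate.neg a z with hisN
    set SC : Finset (Gate V) := T.filter isC with hSC
    set SN : Finset (Gate V) := (T.filter fun g => ¬ isC g).filter isN with hSN
    set SO : Finset (Gate V) := (T.filter fun g => ¬ isC g).filter fun g => ¬ isN g with hSO
    have hcard : T.card = SC.card + (SN.card + SO.card) := by
      rw [hSC, hSN, hSO, Finset.card_filter_add_card_filter_not, Finset.card_filter_add_card_filter_not]
    -- the all-zero assignment satisfies the gates that are neither Constant nor Not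
    have hzero : ∀ g ∈ SO, Sat ε (fun _ : V => (0 : ℝ)) g := by
      intro g hg
      rw [hSO, Finset.mem_filter, Finset.mem_filter] at hg
      obtain ⟨⟨hgT, hnc⟩, hnn⟩ := hg
      cases g with
      | const α z => exact absurd ⟨α, z, rfl⟩ hnc
      | scale α a z =>
        show |(0 : ℝ) - α * 0| ≤ ε
        simpa using hε0
      | copy a z =>
        show |(0 : ℝ) - 0| ≤ ε
        simpa using hε0
      | add a b z =>
        show |(0 : ℝ) - min (0 + 0) 1| ≤ ε
        simpa using hε0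
      | sub a b z =>
        show |(0 : ℝ) - max (0 - 0) 0| ≤ ε
        simpa using hε0
      | less a b z =>
        show ((0 : ℝ) < 0 - ε → 1 - ε ≤ 0) ∧ ((0 : ℝ) + ε < 0 → (0 : ℝ) ≤ ε)
        exact ⟨fun h => by linarith, fun _ => hε0⟩
      | neg a z => exact absurd ⟨a, z, rfl⟩ hnn
      | disj a b z =>
        show ((1 - ε ≤ (0 : ℝ) ∨ 1 - ε ≤ (0 : ℝ)) → 1 - ε ≤ 0) ∧
          (((0 : ℝ) ≤ ε ∧ (0 : ℝ) ≤ ε) → (0 : ℝ) ≤ ε)
        exact ⟨fun h => by rcases h with h | h <;> exact h, fun _ => hε0⟩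
      | conj a b z =>
        show ((1 - ε ≤ (0 : ℝ) ∧ 1 - ε ≤ (0 : ℝ)) → 1 - ε ≤ 0) ∧
          (((0 : ℝ) ≤ ε ∨ (0 : ℝ) ≤ ε) → (0 : ℝ) ≤ ε)
        exact ⟨fun h => h.1, fun _ => hε0⟩
    -- the all-one-half assignment satisfies the Not gates
    have hhalf : ∀ g ∈ SN, Sat ε (fun _ : V => (1 / 2 : ℝ)) g := by
      intro g hg
      rw [hSN, Finset.mem_filter, Finset.mem_filter] at hg
      obtain ⟨a, z, rfl⟩ := hg.2
      show ((1 / 2 : ℝ) ≤ ε → 1 - ε ≤ 1 / 2) ∧ (1 - ε ≤ (1 / 2 : ℝ) → (1 / 2 : ℝ) ≤ ε)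
      exact ⟨fun _ => by linarith, fun _ => by linarith⟩
    -- the assignment putting each Constant gate's parameter on its output node
    set xc : V → ℝ := fun v =>
      if h : ∃ α, Gate.const α v ∈ T then h.choose else 0 with hxc
    have hconst : ∀ g ∈ SC, Sat ε xc g := by
      intro g hg
      rw [hSC, Finset.mem_filter] at hg
      obtain ⟨hgT, α, z, rfl⟩ := hg
      have hex : ∃ β, Gate.const β z ∈ T := ⟨α, hgT⟩
      have hch : Gate.const hex.choose z = Gate.const α z :=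
        hout _ hex.choose_spec _ hgT rfl
      have hval : xc z = α := by
        simp only [hxc, dif_pos hex]
        injection hch
      show |xc z - α| ≤ ε
      rw [hval, sub_self, abs_zero]
      exact hε0
    have hxc01 : ∀ v, 0 ≤ xc v ∧ xc v ≤ 1 := by
      intro v
      by_cases h : ∃ α, Gate.const α v ∈ T
      · simp only [hxc, dif_pos h]
        exact hpar _ h.choose_spec
      · simp only [hxc, dif_neg h]
        exact ⟨le_refl _, zero_le_one⟩
    -- one of the three classes holds at least a third of the gates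
    by_cases h1 : T.card ≤ 3 * SC.card
    · exact ⟨xc, hxc01, SC, Finset.filter_subset _ _, hconst, h1⟩
    by_cases h2 : T.card ≤ 3 * SN.card
    · exact ⟨fun _ => 1 / 2, fun _ => ⟨by norm_num, by norm_num⟩, SN,
        (Finset.filter_subset _ _).trans (Finset.filter_subset _ _), hhalf, h2⟩
    · exact ⟨fun _ => 0, fun _ => ⟨le_refl _, zero_le_one⟩, SO,
        (Finset.filter_subset _ _).trans (Finset.filter_subset _ _), hzero, by omega⟩

end Vale.Agent.Results.P330.TrivialRegime
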